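import Vale.Agent.P088.R2.H269.INF.Ev0

/-!
# P088, stage 3, zone at infinity: the conditions of the far region for suitably chosen constants
-/

open Set Filter
open scoped ContDiff Topology Matrix

noncomputable section

namespace Vale.Agent.P088.R2.H269.INF

open Vale.Agent.P088.LR Vale.Agent.P088.R2.H31.EP Vale.Agent.P088.R2.H768.FarJ

/-! ## Limits -/

theorem te (k : ℕ) {a : ℝ} (ha : 0 < a) :
    Tendsto (fun s : ℝ => s ^ k * Real.exp (-(a * s))) atTop (𝓝 0) := by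
  have h1 := (Real.tendsto_pow_mul_exp_neg_atTop_nhds_zero k).comp
    (tendsto_id.const_mul_atTop ha)
  have h2 := h1.const_mul ((a ^ k)⁻¹)
  rw [mul_zero] at h2
  refine h2.congr fun s => ?_
  simp only [Function.comp, id]
  rw [mul_pow]
  field_simp

theorem te_ev (k : ℕ) {a : ℝ} (ha : 0 < a) {K c : ℝ} (hc : 0 < c) :
    ∀ᶠ s : ℝ in atTop, K * (s ^ k * Real.exp (-(a * s))) ≤ c := by
  have h := (te k ha).const_mul K
  rw [mul_zero] at h
  exact (h.eventually (gt_mem_nhds hc)).mono fun _ => le_of_lt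

theorem te_sq (k : ℕ) {a : ℝ} (ha : 0 < a) {K c : ℝ} (hc : 0 < c) :
    ∀ᶠ t : ℝ in atTop, K * (t ^ k * Real.exp (-(a * √t))) ≤ c := by
  have h := Real.tendsto_sqrt_atTop.eventually (te_ev (2 * k) ha (K := K) hc)
  filter_upwards [h, eventually_ge_atTop 0] with t ht h0
  rwa [pow_mul, Real.sq_sqrt h0] at ht

theorem lin_ev {a : ℝ} (ha : 0 < a) (K : ℝ) : ∀ᶠ t : ℝ in atTop, K ≤ a * t :=
  (tendsto_id.const_mul_atTop ha).eventually_ge_atTop K

theorem sml_mul (c : ℝ) {a : ℝ} (ha : 0 < a) : ∀ᶠ t in sml, c * t ≤ a := by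
  filter_upwards [sml_pos, sml_le (a := a / (|c| + 1)) (by positivity)] with t h0 h1
  have h2 : c * t ≤ |c| * t := mul_le_mul_of_nonneg_right (le_abs_self c) h0.le
  have h3 : (|c| + 1) * t ≤ a := by
    rw [le_div_iff₀ (by positivity)] at h1
    linarith
  linarith

/-! ## The scalar conditions -/

theorem nb_R {e : Cst → ℝ} (he : NB_c' e) (q : Cst) : e q.b_R = e q := (he q.b_R).symm.trans (he q)

theorem nb_M {e : Cst → ℝ} (he : NB_c' e) (q : Cst) : e q.b_M₀ = e q :=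
  (he q.b_M₀).symm.trans (he q)

/-- **The scalar conditions.** -/
theorem ev_sc {n : ℕ} (hn : 1 ≤ n) {e : Cst → ℝ} (he : NB_c' e)
    (h0 : EvC fun q => 0 < e q ∧ e q ≤ 1) : EvC fun q => Sc n q (e q) := by
  have h1 : EvC fun q => q.κ₁ ≤ 1 := EvC.at_κ₁ (fun _ t => t ≤ 1) fun _ => sml_le one_pos
  have h2 : EvC fun q => q.σ ≤ 1 / 5000 :=
    EvC.at_σ (fun _ t => t ≤ 1 / 5000) fun _ => sml_le (by norm_num)
  have h3 : EvC fun q => 0 < e q → 0 < q.κ₁ → q.c' ≤ 1 ∧ 8 * q.c' ≤ e q * q.κ₁ := by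
    have h := EvC.at_c' (fun q t => 0 < e q → 0 < q.κ₁ → t ≤ 1 ∧ 8 * t ≤ e q * q.κ₁) fun q => by
      by_cases h : 0 < e q ∧ 0 < q.κ₁
      · filter_upwards [sml_le (a := 1) one_pos, sml_mul 8 (a := e q * q.κ₁)
          (mul_pos h.1 h.2)] with t a1 a2 _ _
        exact ⟨a1, a2⟩
      · exact Eventually.of_forall fun _ a b => absurd ⟨a, b⟩ h
    refine h.mono fun q hq => ?_
    rw [he q] at hq
    exact hq
  have h4 : EvC fun q => q.es ≤ 1 / 2 :=
    EvC.at_es (fun _ t => t ≤ 1 / 2) fun _ => sml_le (by norm_num)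
  have h5 : EvC fun q => 0 < q.c' → 0 < q.es →
      q.τ ≤ 1 ∧ 0 < q.τ ∧ Cs0 ≤ q.τ * q.r₁ := by
    refine EvC.at_M₀ (fun q t => 0 < q.c' → 0 < q.es → slC q.c' q.es * Real.log t / t ≤ 1 ∧
      0 < slC q.c' q.es * Real.log t / t ∧
      Cs0 ≤ slC q.c' q.es * Real.log t / t * (q.c' * t / 2)) fun q => ?_
    by_cases h : 0 < q.c' ∧ 0 < q.es
    · obtain ⟨N₀, b0, b2, b3⟩ := (slow_ex q.c' q.es).choose_spec h.1 h.2
      have h0' : 0 < slC q.c' q.es := b0
      have t1 : Tendsto (fun t : ℝ => slC q.c' q.es * Real.log t / t) atTop (𝓝 0) := by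
        have := (Real.isLittleO_log_id_atTop.tendsto_div_nhds_zero).const_mul (slC q.c' q.es)
        rw [mul_zero] at this
        refine this.congr fun t => ?_
        simp only [id]
        ring
      have t2 : Tendsto (fun t : ℝ => slC q.c' q.es * q.c' / 2 * Real.log t) atTop atTop :=
        Real.tendsto_log_atTop.const_mul_atTop (by have := h.1; positivity)
      filter_upwards [t1.eventually (gt_mem_nhds one_pos), t2.eventually_ge_atTop Cs0,
        eventually_gt_atTop 1] with t a1 a2 a3 _ _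
      have l0 : 0 < Real.log t := Real.log_pos a3
      have t0 : 0 < t := by linarith
      refine ⟨a1.le, by positivity, ?_⟩
      have e : slC q.c' q.es * Real.log t / t * (q.c' * t / 2) =
          slC q.c' q.es * q.c' / 2 * Real.log t := by
        field_simp
      rw [e]
      exact a2
    · exact Eventually.of_forall fun t a b => absurd ⟨a, b⟩ h
  have h6 : EvC fun q => q.ε ≤ 1 ∧ n * q.ε ≤ 1 / 2 ∧ n * (H657.W.cG n 12 * q.ε) ≤ 1 / 2 := by
    refine EvC.at_ε (fun _ t => t ≤ 1 ∧ n * t ≤ 1 / 2 ∧ n * (H657.W.cG n 12 * t) ≤ 1 / 2)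
      fun _ => ?_
    filter_upwards [sml_le (a := 1) one_pos, sml_mul (n : ℝ) (a := 1 / 2) (by norm_num),
      sml_mul (n * H657.W.cG n 12) (a := 1 / 2) (by norm_num)] with t a1 a2 a3
    exact ⟨a1, a2, by linarith⟩
  have h7 : EvC fun q => 0 < q.κ₁ → 0 < q.σ → 0 < q.r₁ → 0 < e q →
      160 ≤ q.κ₁ * q.R ∧ 64 ≤ q.κ₁ ^ 2 * e q * q.R ∧
      K1 q * Real.exp (-(q.κ₁ * q.R / 40)) ≤ e q / q.R ∧
      ((K1 q + 1) ^ 2 / e q) * q.R ≤
        1 / 2 * Real.exp (q.κ₁ / 40 * min q.R √(q.r₁ * q.σ * q.R / 6)) ∧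
      cS q.e₁ ≤ q.κ₁ * q.R / 40 := by
    have h := EvC.at_R (fun q t => 0 < q.κ₁ → 0 < q.σ → 0 < q.r₁ → 0 < e q →
      160 ≤ q.κ₁ * t ∧ 64 ≤ q.κ₁ ^ 2 * e q * t ∧
      K1 q * Real.exp (-(q.κ₁ * t / 40)) ≤ e q / t ∧
      ((K1 q + 1) ^ 2 / e q) * t ≤
        1 / 2 * Real.exp (q.κ₁ / 40 * min t √(q.r₁ * q.σ * t / 6)) ∧
      cS q.e₁ ≤ q.κ₁ * t / 40) fun q => by
      by_cases hq : 0 < q.κ₁ ∧ 0 < q.σ ∧ 0 < q.r₁ ∧ 0 < e q
      · obtain ⟨hκ, hσ, hr, hee⟩ := hq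
        have w : 0 < q.r₁ * q.σ / 6 := by positivity
        have w' : 0 < √(q.r₁ * q.σ / 6) := Real.sqrt_pos.2 w
        filter_upwards [lin_ev hκ 160, lin_ev (a := q.κ₁ ^ 2 * e q) (by positivity) 64,
          te_ev 1 (a := q.κ₁ / 40) (by positivity) (K := K1 q) hee,
          te_sq 1 (a := q.κ₁ / 40 * √(q.r₁ * q.σ / 6)) (by positivity)
            (K := (K1 q + 1) ^ 2 / e q) (c := 1 / 2) (by norm_num),
          lin_ev (a := q.κ₁ / 40) (by positivity) (cS q.e₁),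
          eventually_ge_atTop (q.r₁ * q.σ / 6), eventually_gt_atTop 0] with
          t a1 a2 a3 a4 a5 a6 a7 _ _ _ _
        have e1 : q.κ₁ * t / 40 = q.κ₁ / 40 * t := by ring
        refine ⟨a1, a2, ?_, ?_, ?_⟩
        · rw [le_div_iff₀ a7, e1]
          rw [pow_one] at a3
          linarith
        · have e2 : √(q.r₁ * q.σ * t / 6) = √(q.r₁ * q.σ / 6) * √t := by
            rw [← Real.sqrt_mul w.le]
            congr 1
            ring
          have e3 : √(q.r₁ * q.σ * t / 6) ≤ t := by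
            rw [Real.sqrt_le_left a7.le]
            nlinarith
          rw [min_eq_right e3, e2]
          rw [pow_one] at a4
          have e4 : Real.exp (-(q.κ₁ / 40 * √(q.r₁ * q.σ / 6) * √t)) *
              Real.exp (q.κ₁ / 40 * (√(q.r₁ * q.σ / 6) * √t)) = 1 := by
            rw [← Real.exp_add, ← Real.exp_zero]
            congr 1
            ring
          have e5 := mul_le_mul_of_nonneg_right a4
            (Real.exp_pos (q.κ₁ / 40 * (√(q.r₁ * q.σ / 6) * √t))).le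
          calc (K1 q + 1) ^ 2 / e q * t = (K1 q + 1) ^ 2 / e q * t *
                (Real.exp (-(q.κ₁ / 40 * √(q.r₁ * q.σ / 6) * √t)) *
                Real.exp (q.κ₁ / 40 * (√(q.r₁ * q.σ / 6) * √t))) := by rw [e4, mul_one]
            _ = (K1 q + 1) ^ 2 / e q * (t * Real.exp (-(q.κ₁ / 40 * √(q.r₁ * q.σ / 6) * √t))) *
                Real.exp (q.κ₁ / 40 * (√(q.r₁ * q.σ / 6) * √t)) := by ring
            _ ≤ _ := e5
        · rw [e1]
          exact a5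
      · exact Eventually.of_forall fun _ a b c d => absurd ⟨a, b, c, d⟩ hq
    refine h.mono fun q hq => ?_
    rw [nb_R he q] at hq
    exact hq
  refine ((((EvC.pos.and h0).and (h1.and h2)).and ((h3.and h4).and (h5.and h6))).and h7).mono ?_
  rintro q ⟨⟨⟨⟨⟨⟨-, b2, -⟩, ⟨c1, c2, c3, c4, -, -, -⟩, m1, -, m3, -, m5, m6⟩, e0, e1⟩, k1, k2⟩,
    ⟨k3, k4⟩, k5, k6⟩, k7⟩
  obtain ⟨x1, x2⟩ := k3 e0 c1
  obtain ⟨y1, y2, y3⟩ := k5 c3 c4
  have hr : 0 < q.r₁ := by unfold Cst.r₁; positivity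
  obtain ⟨z1, z2, z3, z4, z5⟩ := k7 c1 c2 hr e0
  exact ⟨hn, c1, k1, c2, k2, b2, m1, c4.le, k4, c3, x1, y2, y1, y3, m6, z1, m5, m3.le, k6.1,
    k6.2.1, k6.2.2, e0, e1, x2, z2, z3, z4, z5⟩

/-- **The scalar conditions for the top part.** -/
theorem ev_scT {e : Cst → ℝ} (he : NB_c' e) (h0 : EvC fun q => 0 < e q ∧ e q ≤ 1) :
    EvC fun q => ScT q (e q) := by
  have h2 : EvC fun q => q.σ ≤ 1 / 5000 :=
    EvC.at_σ (fun _ t => t ≤ 1 / 5000) fun _ => sml_le (by norm_num)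
  have h3 : EvC fun q => 0 < e q → (2 * K3 + 1) ^ 2 ≤ e q * q.M₀ := by
    have h := EvC.at_M₀ (fun q t => 0 < e q → (2 * K3 + 1) ^ 2 ≤ e q * t) fun q => by
      by_cases h : 0 < e q
      · filter_upwards [lin_ev h ((2 * K3 + 1) ^ 2)] with t a1 _
        exact a1
      · exact Eventually.of_forall fun _ a => absurd a h
    refine h.mono fun q hq => ?_
    rw [nb_M he q] at hq
    exact hq
  have h7 : EvC fun q => 0 < e q → 100 ≤ q.R ∧ q.tny ≤ 1 ∧
      (2 * K3 * q.L₄ ^ 4 + 1) ^ 2 ≤ e q * q.R ^ 3 / 2 ∧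
      q.L₄ ^ 4 * Real.exp (-(q.R / 100)) ≤ (q.R ^ 2)⁻¹ := by
    have h := EvC.at_R (fun q t => 0 < e q → 100 ≤ t ∧
      t ^ 4 * Real.exp (1 - 4 / 100 * √t) ≤ 1 ∧
      (2 * K3 * q.L₄ ^ 4 + 1) ^ 2 ≤ e q * t ^ 3 / 2 ∧
      q.L₄ ^ 4 * Real.exp (-(t / 100)) ≤ (t ^ 2)⁻¹) fun q => by
      by_cases hee : 0 < e q
      · filter_upwards [eventually_ge_atTop 100, te_sq 4 (a := 4 / 100) (by norm_num)
          (K := Real.exp 1) (c := 1) one_pos,
          lin_ev (a := e q / 2) (by positivity) ((2 * K3 * q.L₄ ^ 4 + 1) ^ 2),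
          te_ev 2 (a := 1 / 100) (by norm_num) (K := q.L₄ ^ 4) one_pos] with t a1 a2 a3 a4 _
        have t0 : 0 < t := by linarith
        refine ⟨a1, ?_, ?_, ?_⟩
        · refine le_trans (le_of_eq ?_) a2
          rw [show (1 : ℝ) - 4 / 100 * √t = 1 + -(4 / 100 * √t) by ring, Real.exp_add]
          ring
        · refine a3.trans ?_
          have : t ≤ t ^ 3 := le_self_pow₀ (by linarith) (by norm_num)
          nlinarith
        · rw [← one_div, le_div_iff₀ (by positivity)]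
          refine le_trans (le_of_eq ?_) a4
          rw [show -(t / 100) = -(1 / 100 * t) by ring]
          ring
      · exact Eventually.of_forall fun _ a => absurd a hee
    refine h.mono fun q hq => ?_
    rw [nb_R he q] at hq
    exact hq
  refine (((EvC.pos.and h0).and h2).and (h3.and h7)).mono ?_
  rintro q ⟨⟨⟨⟨-, ⟨-, c2, -, -, -, -, c7⟩, m1, -⟩, e0, -⟩, k2⟩, k3, k7⟩
  obtain ⟨z1, z2, z3, z4⟩ := k7 e0
  refine ⟨e0, m1, ?_, k3 e0, z1, z2, z3, z4⟩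
  rw [Cst.L₄, le_div_iff₀ c2]
  linarith

/-! ## The far region -/

/-- The constant of the bounds: it depends on the constants before `c'`. -/
def Cf (n : ℕ) (q : Cst) : ℝ :=
  (far_bd n q.κ₁ q.σ q.e₁ Cs3).choose + (far0_bd n (16 / 5) q.κ₁ q.σ q.e₁ Cs3).choose

theorem Cf_nb (n : ℕ) : NB_c' (Cf n) := fun _ => rfl

theorem Cf_nn (n : ℕ) (q : Cst) : 0 ≤ Cf n q :=
  add_nonneg (far_bd n q.κ₁ q.σ q.e₁ Cs3).choose_spec.1
    (far0_bd n (16 / 5) q.κ₁ q.σ q.e₁ Cs3).choose_spec.1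

theorem Sb5.mono {E ι κ : Type*} [NormedAddCommGroup E] [NormedSpace ℝ E] [Fintype ι] [Fintype κ]
    {σ : H961.GW.Sl E ι} {τ : H961.GW.Sl E κ} {f : E → ℝ} {C C' : ℝ}
    {g gx gy : ℕ → ℝ} {z : E} (b : Sb5 σ τ f C g gx gy z) (g0 : ∀ j, 0 ≤ g j)
    (gx0 : ∀ j, 0 ≤ gx j) (gy0 : ∀ j, 0 ≤ gy j) (hC : C ≤ C') : Sb5 σ τ f C' g gx gy z where
  d1 i := (b.d1 i).trans (mul_le_mul_of_nonneg_right hC (gx0 _))
  d1' i := (b.d1' i).trans (mul_le_mul_of_nonneg_right hC (gy0 _))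
  d2 i j := (b.d2 i j).trans (mul_le_mul_of_nonneg_right hC (gx0 _))
  d2' i j := (b.d2' i j).trans (mul_le_mul_of_nonneg_right hC (gy0 _))
  dm i j := (b.dm i j).trans (mul_le_mul_of_nonneg_right hC (g0 _))
  L1 := b.L1.trans (mul_le_mul_of_nonneg_right hC (gx0 _))
  L1' := b.L1'.trans (mul_le_mul_of_nonneg_right hC (gy0 _))
  l1 i := (b.l1 i).trans (mul_le_mul_of_nonneg_right hC (gx0 _))
  l2 i := (b.l2 i).trans (mul_le_mul_of_nonneg_right hC (g0 _))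
  l3 i := (b.l3 i).trans (mul_le_mul_of_nonneg_right hC (g0 _))
  l4 i := (b.l4 i).trans (mul_le_mul_of_nonneg_right hC (gy0 _))
  m1 := b.m1.trans (mul_le_mul_of_nonneg_right hC (gx0 _))
  m2 := b.m2.trans (mul_le_mul_of_nonneg_right hC (g0 _))
  m3 := b.m3.trans (mul_le_mul_of_nonneg_right hC (g0 _))
  m4 := b.m4.trans (mul_le_mul_of_nonneg_right hC (gy0 _))
  g2 := b.g2.trans (mul_le_mul_of_nonneg_right hC (sq_nonneg _))
  g2' := b.g2'.trans (mul_le_mul_of_nonneg_right hC (sq_nonneg _))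
  gm := b.gm.trans (mul_le_mul_of_nonneg_right hC (sq_nonneg _))

/-- The pointwise facts in the far region, with smallness `e`. -/
structure FarB (n : ℕ) (q : Cst) (d : Pk n) (e : ℝ) : Prop where
  fc : FC n q.κ₁ q.σ q.e₁ Cs3 q d e
  fc0 : FC0 n (16 / 5) q.κ₁ q.σ q.e₁ Cs3 q d e
  /-- all slot quantities of `W` -/
  sb : ∀ z ∈ UF q.κ₁ q d, Sb5 d.sx d.sy (d.W q) (Cf n q)
    (sz (nn q d z) (bb q e (nn q d z))) (sz (nx q d z) (bb q e (nx q d z)))
    (sz (ny q d z) (bb q e (ny q d z))) z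
  /-- the derivatives of `W₀`, levels up to `l₀ + 3.2 R` -/
  w0 : ∀ z ∈ UL (16 / 5) q.κ₁ q d, ∀ j ≤ 3,
    ‖iteratedFDeriv ℝ j (fderiv ℝ (WW (d.F q) d.l (gi d.s₁))) z‖ ≤
      Cf n q * sz (nn q d z) (bb q e (nn q d z)) j
  sb0 : ∀ z ∈ UL (16 / 5) q.κ₁ q d, Sb4 d.sx d.sy (WW (d.F q) d.l (gi d.s₁)) (Cf n q)
    (sz (nn q d z) (bb q e (nn q d z))) z

/-- **The far region.** For every smallness `e` depending on the constants before `c'` (in
particular on `Cf n q`). -/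
theorem ev_far {n : ℕ} (hn : 1 ≤ n) {e : Cst → ℝ} (he : NB_c' e)
    (h0 : EvC fun q => 0 < e q ∧ e q ≤ 1) :
    EvC fun q => ∀ d : Pk n, PkOk q d → FarB n q d (e q) := by
  refine ((ev_sc hn he h0).and (ev_scT he h0)).mono fun q hq d hd => ?_
  have c1 := (far_bd n q.κ₁ q.σ q.e₁ Cs3).choose_spec
  have c2 := (far0_bd n (16 / 5) q.κ₁ q.σ q.e₁ Cs3).choose_spec
  have fc := hq.1.fc hq.2 hd
  have fc0 := hq.1.fc0 hd (ℓ := 16 / 5) (by norm_num)
  refine ⟨fc, fc0, fun z hz => ?_, fun z hz j hj => ?_, fun z hz => ?_⟩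
  · have n1 := fc.toFC0.n_ge hz
    have n2 := fc.nx_ge z
    have n3 := fc.ny_ge z
    refine (c1.2 q d (e q) Cs3_nn fc z hz).mono ?_ ?_ ?_ ?_
    · exact fun j => sz_nn (by linarith) (fc.toFC0.bb_pos n1).le j
    · exact fun j => sz_nn (by linarith) (fc.toFC0.bb_pos (n1.trans n2)).le j
    · exact fun j => sz_nn (by linarith) (fc.toFC0.bb_pos (n1.trans n3)).le j
    · unfold Cf; linarith [c2.1]
  · have n1 := fc0.n_ge hz
    refine ((c2.2 q d (e q) Cs3_nn fc0 z hz).1 j hj).trans (mul_le_mul_of_nonneg_right ?_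
      (sz_nn (by linarith) (fc0.bb_pos n1).le j))
    unfold Cf; linarith [c1.1]
  · have n1 := fc0.n_ge hz
    refine (c2.2 q d (e q) Cs3_nn fc0 z hz).2.mono ?_ ?_
    · exact fun j => sz_nn (by linarith) (fc0.bb_pos n1).le j
    · unfold Cf; linarith [c1.1]

end Vale.Agent.P088.R2.H269.INF
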