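import Vale.Agent.P088.R2.H269.INF.Slow
import Vale.Agent.P088.R2.H31.EP.Thx

/-!
# P088, stage 3, zone at infinity: sizes of the derivatives of the top part

`|Θ^(j+1)| ≤ sz m (√(e m / R)) j` for `j = 1, 2, 3`, `m = M₀ + Θ'`.
-/

open scoped ContDiff Topology
open Set Filter

noncomputable section

namespace Vale.Agent.P088.R2.H269.INF

open Vale.Agent.P088.R2.H313.Th Vale.Agent.P088.R2.H31.EP

/-! ## The sizes -/

/-- Large `b`. -/
theorem sz_big {m b K : ℝ} (hm : 0 ≤ m) (hK : 0 ≤ K) (hb : K + 1 ≤ b) {j : ℕ} (h1 : 1 ≤ j) :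
    K * m ≤ sz m b j := by
  have b1 : 1 ≤ b := by linarith
  have e1 : b ≤ b ^ min j 2 := le_self_pow₀ b1 (by omega)
  have e2 : 1 ≤ (1 + b) ^ (j - 2) := one_le_pow₀ (by linarith)
  have e3 : K ≤ b ^ min j 2 := by linarith
  unfold sz
  calc K * m = m * K * 1 := by ring
    _ ≤ m * b ^ min j 2 * (1 + b) ^ (j - 2) :=
      mul_le_mul (mul_le_mul_of_nonneg_left e3 hm) e2 zero_le_one (by positivity)

/-- From the sizes `R ^ (-j/2) m`. -/
theorem sz_slow {m b K e R : ℝ} (hm : 0 ≤ m) (hK : 0 ≤ K) (hR : 1 ≤ R) (he : 0 ≤ e)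
    (hb : b = √(e * m / R)) (h : (K + 1) ^ 2 ≤ e * m) {j : ℕ} (h1 : 1 ≤ j) (h3 : j ≤ 3) :
    K * ((√R)⁻¹ ^ j * m) ≤ sz m b j := by
  have hR0 : 0 < R := by linarith
  have hs : 0 < √R := Real.sqrt_pos.2 hR0
  have hs1 : 1 ≤ √R := Real.one_le_sqrt.2 hR
  have hi0 : 0 ≤ (√R)⁻¹ := inv_nonneg.2 hs.le
  have hi1 : (√R)⁻¹ ≤ 1 := inv_le_one_of_one_le₀ hs1
  have hb0 : 0 ≤ b := by rw [hb]; exact Real.sqrt_nonneg _
  have hb1 : K * (√R)⁻¹ ≤ b := by
    rw [hb, Real.sqrt_div (mul_nonneg he hm), div_eq_mul_inv]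
    refine mul_le_mul_of_nonneg_right ?_ hi0
    refine Real.le_sqrt_of_sq_le ?_
    nlinarith
  have hb2 : K * (√R)⁻¹ ^ 2 ≤ b ^ 2 := by
    have e1 : (√R)⁻¹ ^ 2 = R⁻¹ := by rw [inv_pow, Real.sq_sqrt hR0.le]
    rw [hb, Real.sq_sqrt (div_nonneg (mul_nonneg he hm) hR0.le), e1, div_eq_mul_inv]
    refine mul_le_mul_of_nonneg_right ?_ (inv_nonneg.2 hR0.le)
    nlinarith
  obtain rfl | rfl | rfl : j = 1 ∨ j = 2 ∨ j = 3 := by omega
  · rw [sz1, pow_one]
    calc K * ((√R)⁻¹ * m) = m * (K * (√R)⁻¹) := by ring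
      _ ≤ m * b := mul_le_mul_of_nonneg_left hb1 hm
  · rw [sz2]
    calc K * ((√R)⁻¹ ^ 2 * m) = m * (K * (√R)⁻¹ ^ 2) := by ring
      _ ≤ m * b ^ 2 := mul_le_mul_of_nonneg_left hb2 hm
  · rw [sz3]
    calc K * ((√R)⁻¹ ^ 3 * m) = m * (K * (√R)⁻¹ ^ 2) * (√R)⁻¹ := by ring
      _ ≤ m * b ^ 2 * (1 + b) := by
          refine mul_le_mul (mul_le_mul_of_nonneg_left hb2 hm) (by linarith) hi0 (by positivity)

/-- The least size. -/
theorem sz_least {m b e R : ℝ} (hm : 1 ≤ m) (hR : 1 ≤ R) (he : 0 ≤ e) (he1 : e ≤ 1)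
    (hb : b = √(e * m / R)) {j : ℕ} (h1 : 1 ≤ j) (h3 : j ≤ 3) : e / R ≤ sz m b j := by
  have hR0 : 0 < R := by linarith
  have hm0 : 0 ≤ m := by linarith
  have hb0 : 0 ≤ b := by rw [hb]; exact Real.sqrt_nonneg _
  have x0 : 0 ≤ e / R := div_nonneg he hR0.le
  have x1 : e / R ≤ 1 := (div_le_one hR0).2 (he1.trans hR)
  have y1 : e / R ≤ e * m / R := div_le_div_of_nonneg_right (le_mul_of_one_le_right he hm) hR0.le
  have hb2 : e / R ≤ b ^ 2 := by
    rw [hb, Real.sq_sqrt (x0.trans y1)]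
    exact y1
  have hb1 : e / R ≤ b := by
    rw [hb]
    refine Real.le_sqrt_of_sq_le (le_trans ?_ y1)
    nlinarith
  obtain rfl | rfl | rfl : j = 1 ∨ j = 2 ∨ j = 3 := by omega
  · rw [sz1]
    exact hb1.trans (le_mul_of_one_le_left hb0 hm)
  · rw [sz2]
    exact hb2.trans (le_mul_of_one_le_left (sq_nonneg b) hm)
  · rw [sz3]
    have z1 : e / R ≤ m * b ^ 2 := hb2.trans (le_mul_of_one_le_left (sq_nonneg b) hm)
    exact z1.trans (le_mul_of_one_le_right (by positivity) (by linarith))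

/-! ## Log-Lipschitz functions with small onset -/

section th

variable {Ck : ℕ → ℝ} {A Lam c w : ℝ} {Th : ℝ → ℝ}

/-- All derivatives against the first one. -/
theorem thl_all (h : IsThL Ck A Lam c w Th) (hA : 0 ≤ A) (hL : 1 ≤ Lam) (hC : ∀ j, 0 ≤ Ck j)
    (j : ℕ) (l : ℝ) : |iteratedDeriv (j + 2) Th l| ≤ (Ck j + Ck (j + 2)) * Lam ^ (j + 2) *
      (deriv Th l + A * Real.exp (-(Lam * (w / 2 - 1)))) := by
  set tn := A * Real.exp (-(Lam * (w / 2 - 1))) with htn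
  have t0 : 0 ≤ tn := by positivity
  have d0 := h.d0 l
  have hL0 : 0 ≤ Lam := by linarith
  have p0 : 0 ≤ Lam ^ (j + 2) := by positivity
  have c1 := hC j
  have c2 := hC (j + 2)
  rcases le_total l (c + 1) with hl | hl
  · refine (h.on (j + 2) l hl).trans ?_
    rw [← htn]
    have x1 : 0 ≤ Lam ^ (j + 2) * tn := mul_nonneg p0 t0
    have x2 : 0 ≤ Lam ^ (j + 2) * deriv Th l := mul_nonneg p0 d0
    nlinarith
  · refine (h.ll j l hl).trans ?_
    have h1 := h.up l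
    rw [← htn] at h1
    have y0 : 0 ≤ deriv Th l + tn := add_nonneg d0 t0
    have x1 : Lam ^ j * deriv (deriv Th) l ≤ Lam ^ (j + 2) * (deriv Th l + tn) := by
      calc Lam ^ j * deriv (deriv Th) l ≤ Lam ^ j * (Lam * (deriv Th l + tn)) :=
            mul_le_mul_of_nonneg_left h1 (by positivity)
        _ = Lam ^ (j + 1) * (deriv Th l + tn) := by rw [pow_succ]; ring
        _ ≤ _ := mul_le_mul_of_nonneg_right (pow_le_pow_right₀ hL (by omega)) y0
    have x2 : 0 ≤ Lam ^ (j + 2) * (deriv Th l + tn) := mul_nonneg p0 y0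
    calc Ck j * Lam ^ j * deriv (deriv Th) l = Ck j * (Lam ^ j * deriv (deriv Th) l) := by ring
      _ ≤ Ck j * (Lam ^ (j + 2) * (deriv Th l + tn)) := mul_le_mul_of_nonneg_left x1 c1
      _ ≤ (Ck j + Ck (j + 2)) * (Lam ^ (j + 2) * (deriv Th l + tn)) :=
        mul_le_mul_of_nonneg_right (by linarith) x2
      _ = _ := by ring

/-- The growth of the slope. -/
theorem thl_gr (h : IsThL Ck A Lam c w Th) (hA : 0 ≤ A) (hL : 0 ≤ Lam) {l s : ℝ} (hs : 0 ≤ s)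
    (hl : l ≤ c + s) : deriv Th l + A * Real.exp (-(Lam * (w / 2 - 1))) ≤
      A * Real.exp (-(Lam * (w / 2 - 1))) * Real.exp (Lam * s) := by
  set tn := A * Real.exp (-(Lam * (w / 2 - 1))) with htn
  have t0 : 0 ≤ tn := by positivity
  have z0 : ∀ l ≤ c, deriv Th l = 0 := by
    have h1 : ∀ l < c, deriv Th l = 0 := by
      intro l hl
      have : Th =ᶠ[𝓝 l] fun _ => 0 := by
        filter_upwards [Iio_mem_nhds hl] with t ht using h.ze t (le_of_lt ht)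
      rw [this.deriv_eq]
      simp
    have hc : Continuous (deriv Th) := h.sm.continuous_deriv (by norm_num)
    intro l hl
    rcases eq_or_lt_of_le hl with rfl | hl
    · have e1 : Tendsto (deriv Th) (𝓝[<] l) (𝓝 (deriv Th l)) := hc.continuousWithinAt
      have e2 : Tendsto (deriv Th) (𝓝[<] l) (𝓝 0) := by
        refine tendsto_const_nhds.congr' ?_
        filter_upwards [self_mem_nhdsWithin] with t ht using (h1 t ht).symm
      exact tendsto_nhds_unique e1 e2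
    · exact h1 l hl
  have e1 : 1 ≤ Real.exp (Lam * s) := Real.one_le_exp (mul_nonneg hL hs)
  rcases le_total l c with hlc | hlc
  · rw [z0 l hlc, zero_add]
    exact le_mul_of_one_le_right t0 e1
  · -- monotonicity
    have hs1 : ContDiff ℝ ∞ (deriv Th) := (contDiff_infty_iff_deriv.1 h.sm).2
    have hd : ∀ v, HasDerivAt (fun v => (deriv Th v + tn) * Real.exp (-(Lam * v)))
        (deriv (deriv Th) v * Real.exp (-(Lam * v)) +
          (deriv Th v + tn) * (Real.exp (-(Lam * v)) * -(Lam * 1))) v := fun v => by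
      have h1 := ((hs1.differentiable (by simp)) v).hasDerivAt.add_const tn
      have h2 := (((hasDerivAt_id v).const_mul Lam).neg).exp
      exact h1.mul h2
    have hanti : Antitone fun v => (deriv Th v + tn) * Real.exp (-(Lam * v)) :=
      antitone_of_deriv_nonpos (fun v => (hd v).differentiableAt) fun v => by
        rw [(hd v).deriv]
        have h1 := h.up v
        rw [← htn] at h1
        have h2 := mul_le_mul_of_nonneg_right h1 (Real.exp_pos (-(Lam * v))).le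
        linarith
    have h3 := hanti hlc
    simp only at h3
    rw [z0 c le_rfl, zero_add] at h3
    have h4 : deriv Th l + tn ≤ tn * Real.exp (Lam * (l - c)) := by
      have h5 := mul_le_mul_of_nonneg_right h3 (Real.exp_pos (Lam * l)).le
      have e2 : Real.exp (-(Lam * l)) * Real.exp (Lam * l) = 1 := by
        rw [← Real.exp_add]; simp
      have e3 : Real.exp (-(Lam * c)) * Real.exp (Lam * l) = Real.exp (Lam * (l - c)) := by
        rw [← Real.exp_add]; congr 1; ring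
      rw [mul_assoc, e2, mul_one, mul_assoc, e3] at h5
      exact h5
    refine h4.trans (mul_le_mul_of_nonneg_left (Real.exp_le_exp.2 ?_) t0)
    exact mul_le_mul_of_nonneg_left (by linarith) hL

end th

/-! ## The top part -/

/-- The constant of the top part (absolute). -/
def K3 : ℝ := (thC 0 + thC 2) + (thC 1 + thC 3) + (thC 2 + thC 4)

theorem K3_nn : 0 ≤ K3 := by
  have := thC_nonneg
  unfold K3
  linarith [this 0, this 1, this 2, this 3, this 4]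

theorem K3_ge {j : ℕ} (h : j ≤ 2) : thC j + thC (j + 2) ≤ K3 := by
  have := thC_nonneg
  unfold K3
  obtain rfl | rfl | rfl : j = 0 ∨ j = 1 ∨ j = 2 := by omega
  all_goals linarith [this 0, this 1, this 2, this 3, this 4]

/-- The conditions on the constants. -/
structure ScT (q : Cst) (e : ℝ) : Prop where
  e0 : 0 < e
  M1 : 1 ≤ q.M₀
  L1 : 1 ≤ q.L₄
  eM : (2 * K3 + 1) ^ 2 ≤ e * q.M₀
  R1 : 100 ≤ q.R
  ty : q.tny ≤ 1
  eR : (2 * K3 * q.L₄ ^ 4 + 1) ^ 2 ≤ e * q.R ^ 3 / 2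
  LR : q.L₄ ^ 4 * Real.exp (-(q.R / 100)) ≤ (q.R ^ 2)⁻¹

variable {n : ℕ} {q : Cst} {d : Pk n}

/-- **Sizes of the derivatives of `Θ`.** -/
theorem th_sz (h : PkOk q d) (hσ : 0 < q.σ) {e : ℝ} (s : ScT q e) {m : ℝ} {t : ℝ}
    (hm : q.M₀ + deriv d.Θ t ≤ m) {j : ℕ} (h1 : 1 ≤ j) (h3 : j ≤ 3) :
    |iteratedDeriv (j + 1) d.Θ t| ≤ sz m (√(e * m / q.R)) j := by
  have hR1 : 1 ≤ q.R := by linarith [s.R1]
  have hR0 : 0 < q.R := by linarith
  have hs : 0 < √q.R := Real.sqrt_pos.2 hR0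
  have hs1 : 1 ≤ √q.R := Real.one_le_sqrt.2 hR1
  have hi0 : 0 ≤ (√q.R)⁻¹ := inv_nonneg.2 hs.le
  have hi1 : (√q.R)⁻¹ ≤ 1 := inv_le_one_of_one_le₀ hs1
  have hL0 : 0 < q.L₄ := by linarith [s.L1]
  have hA : 0 ≤ q.A₄ := (Real.exp_pos _).le
  have d0 := h.th.d0 t
  have d0' := h.ts.d0 (t / √q.R)
  have dd := h.Θd hR0 t
  have m1 : 1 ≤ m := by
    have := s.M1
    rw [dd] at hm
    linarith
  have m0 : 0 ≤ m := by linarith
  have hK := K3_nn
  obtain ⟨i, rfl⟩ : ∃ i, j = i + 1 := ⟨j - 1, by omega⟩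
  have hi2 : i ≤ 2 := by omega
  have kj := K3_ge hi2
  have cj : 0 ≤ thC i + thC (i + 2) := add_nonneg (thC_nonneg _) (thC_nonneg _)
  -- the tiny numbers
  have eA : q.A₄ = Real.exp (q.L₄ * (q.R / 20)) := by
    rw [Cst.A₄, Cst.L₄]
    congr 1
    field_simp
  have tL : q.tnL = Real.exp (-(q.L₄ * (q.R / 10 - 1))) := by
    rw [Cst.tnL, eA, ← Real.exp_add]
    congr 1
    ring
  have tL1 : q.tnL ≤ 1 := by
    rw [tL]
    refine Real.exp_le_one_iff.2 ?_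
    have : 0 ≤ q.L₄ * (q.R / 10 - 1) := mul_nonneg hL0.le (by linarith [s.R1])
    linarith
  -- the slow part
  have a1 : |√q.R * (√q.R)⁻¹ ^ (i + 1 + 1) * iteratedDeriv (i + 1 + 1) d.ΘT (t / √q.R)| ≤
      K3 * ((√q.R)⁻¹ ^ (i + 1) * m) := by
    have e1 : √q.R * (√q.R)⁻¹ ^ (i + 1 + 1) = (√q.R)⁻¹ ^ (i + 1) := by
      rw [pow_succ (√q.R)⁻¹ (i + 1)]; field_simp
    rw [abs_mul, e1, abs_of_nonneg (pow_nonneg hi0 _)]
    have h4 := thl_all h.ts (by positivity) le_rfl thC_nonneg i (t / √q.R)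
    have e : -(1 * (8 / 100 * √q.R / 2 - 1)) = 1 - 4 / 100 * √q.R := by ring
    rw [one_pow, mul_one, e] at h4
    have h5 : deriv d.ΘT (t / √q.R) + q.R ^ 4 * Real.exp (1 - 4 / 100 * √q.R) ≤ m := by
      have h6 : q.R ^ 4 * Real.exp (1 - 4 / 100 * √q.R) ≤ 1 := s.ty
      rw [dd] at hm
      linarith [s.M1]
    have h7 : |iteratedDeriv (i + 2) d.ΘT (t / √q.R)| ≤ K3 * m :=
      h4.trans (mul_le_mul kj h5 (add_nonneg d0' (by positivity)) hK)
    calc (√q.R)⁻¹ ^ (i + 1) * |iteratedDeriv (i + 1 + 1) d.ΘT (t / √q.R)| ≤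
          (√q.R)⁻¹ ^ (i + 1) * (K3 * m) := mul_le_mul_of_nonneg_left h7 (by positivity)
      _ = _ := by ring
  -- the fast part
  have a2 := thl_all h.th hA s.L1 thC_nonneg i t
  have a3 : (thC i + thC (i + 2)) * q.L₄ ^ (i + 2) ≤ K3 * q.L₄ ^ 4 :=
    mul_le_mul kj (pow_le_pow_right₀ s.L1 (by omega)) (by positivity) hK
  have a4 : 0 ≤ deriv d.ΘL t + q.tnL := by
    rw [tL]; positivity
  have a5 : |iteratedDeriv (i + 1 + 1) d.ΘL t| ≤ K3 * q.L₄ ^ 4 * (deriv d.ΘL t + q.tnL) :=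
    a2.trans (mul_le_mul_of_nonneg_right a3 a4)
  rw [h.Θj]
  refine (abs_add_le _ _).trans ?_
  rcases le_total t (d.l₀ q + 268 / 100 * q.R) with ht | ht
  · -- `ΘL` is tiny
    have b1 := thl_gr h.th hA hL0.le (l := t) (s := 8 / 100 * q.R) (by positivity) (by linarith)
    have b2 : deriv d.ΘL t + q.tnL ≤ Real.exp (-(q.R / 100)) := by
      refine b1.trans ?_
      change q.tnL * Real.exp (q.L₄ * (8 / 100 * q.R)) ≤ _
      rw [tL, ← Real.exp_add]
      refine Real.exp_le_exp.2 ?_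
      have : -(q.L₄ * (q.R / 10 - 1)) + q.L₄ * (8 / 100 * q.R) = -(q.L₄ * (q.R / 50 - 1)) := by
        ring
      rw [this]
      have h5 : q.R / 100 ≤ q.R / 50 - 1 := by linarith [s.R1]
      have h6 : 0 ≤ q.R / 50 - 1 := by linarith [s.R1]
      nlinarith [s.L1]
    have b3 : |iteratedDeriv (i + 1 + 1) d.ΘL t| ≤ K3 * ((√q.R)⁻¹ ^ (i + 1) * m) := by
      have c1 : K3 * q.L₄ ^ 4 * (deriv d.ΘL t + q.tnL) ≤ K3 * (q.R ^ 2)⁻¹ := by
        calc K3 * q.L₄ ^ 4 * (deriv d.ΘL t + q.tnL) ≤ K3 * q.L₄ ^ 4 * Real.exp (-(q.R / 100)) :=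
              mul_le_mul_of_nonneg_left b2 (by positivity)
          _ = K3 * (q.L₄ ^ 4 * Real.exp (-(q.R / 100))) := by ring
          _ ≤ _ := mul_le_mul_of_nonneg_left s.LR hK
      have c2 : (q.R ^ 2)⁻¹ = (√q.R)⁻¹ ^ 4 := by
        rw [inv_pow]
        congr 1
        have : √q.R ^ 4 = (√q.R ^ 2) ^ 2 := by ring
        rw [this, Real.sq_sqrt hR0.le]
      have c3 : (√q.R)⁻¹ ^ 4 ≤ (√q.R)⁻¹ ^ (i + 1) :=
        pow_le_pow_of_le_one hi0 hi1 (by omega)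
      have c4 : (q.R ^ 2)⁻¹ ≤ (√q.R)⁻¹ ^ (i + 1) * m := by
        rw [c2]
        exact c3.trans (le_mul_of_one_le_right (by positivity) m1)
      exact a5.trans (c1.trans (mul_le_mul_of_nonneg_left c4 hK))
    have b4 := sz_slow (K := 2 * K3) m0 (by positivity) hR1 s.e0.le rfl
      (s.eM.trans (mul_le_mul_of_nonneg_left (by
        rw [dd] at hm
        linarith) s.e0.le)) h1 h3
    linarith
  · -- `m` is large
    have b1 := h.Θtop4 hR0 t ht
    have b2 : q.R ^ 4 / 2 ≤ m := by linarith [s.M1]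
    have b3 : (2 * K3 * q.L₄ ^ 4 + 1) ^ 2 ≤ e * m / q.R := by
      rw [le_div_iff₀ hR0]
      calc (2 * K3 * q.L₄ ^ 4 + 1) ^ 2 * q.R ≤ e * q.R ^ 3 / 2 * q.R :=
            mul_le_mul_of_nonneg_right s.eR hR0.le
        _ = e * (q.R ^ 4 / 2) := by ring
        _ ≤ e * m := mul_le_mul_of_nonneg_left b2 s.e0.le
    have b4 : 2 * K3 * q.L₄ ^ 4 + 1 ≤ √(e * m / q.R) := Real.le_sqrt_of_sq_le b3
    have b5 := sz_big (j := i + 1) m0 (by positivity : 0 ≤ 2 * K3 * q.L₄ ^ 4) b4 h1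
    have b6 : deriv d.ΘL t + q.tnL ≤ m := by
      rw [dd] at hm
      linarith [s.M1]
    have b7 : |iteratedDeriv (i + 1 + 1) d.ΘL t| ≤ K3 * q.L₄ ^ 4 * m :=
      a5.trans (mul_le_mul_of_nonneg_left b6 (by positivity))
    have b8 : (√q.R)⁻¹ ^ (i + 1) * m ≤ q.L₄ ^ 4 * m := by
      refine mul_le_mul_of_nonneg_right ?_ m0
      exact (pow_le_one₀ hi0 hi1).trans (one_le_pow₀ s.L1)
    have b9 := mul_le_mul_of_nonneg_left b8 hK
    linarith

end Vale.Agent.P088.R2.H269.INF
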