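import Vale.Agent.P088.R2.H269.INF.Inst
import Vale.Agent.P088.R2.H269.INF.Tht
import Vale.Agent.P088.R2.H349.EP.FuOk

/-!
# P088, stage 3, zone at infinity: the conditions of the far region from scalar conditions
-/

open Set Filter
open scoped ContDiff Topology Matrix

noncomputable section

namespace Vale.Agent.P088.R2.H269.INF

open Vale.Agent.P088.LR Vale.Agent.P088.HY Vale.Agent.P088.R2.H464.Cu
open Vale.Agent.P088.R2.H31.EP Vale.Agent.P088.R2.H475 Vale.Agent.P088.R2.H768.FarJ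
open Vale.Agent.P088.R2.H961.GW Vale.Agent.P088.R2.H657.W

/-! ## The profile from below -/

theorem prS_lo {e₁ : ℝ} (h : 0 < e₁) :
    ∃ C : ℝ, 0 ≤ C ∧ ∀ s, 0 < s → C ≤ √s → 4 / 5 * √s - C ≤ Real.log (prS e₁ s) := by
  obtain ⟨R₁, hR, hR1⟩ := (H349.EP.pp_ok h).exists_R
  have hR0 : 0 < R₁ := (H349.EP.pp_ok h).r0.trans hR
  have hpos : ∀ s, 0 < s → 0 < prS e₁ s := fun s hs => (H349.EP.pp_ok h).S_pos hs
  refine ⟨|Real.log (prS e₁ (R₁ ^ 2))| + R₁, by positivity, fun s hs hsC => ?_⟩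
  have hA := neg_abs_le (Real.log (prS e₁ (R₁ ^ 2)))
  have h1 : R₁ ≤ √s := by linarith [abs_nonneg (Real.log (prS e₁ (R₁ ^ 2)))]
  have h2 := (H349.EP.pp_ok h).S_far hR0 (fun r hr => (hR1 r hr).1) h1
  rw [Real.sq_sqrt hs.le] at h2
  have h3 : prS e₁ s = prS e₁ (R₁ ^ 2) * Real.exp (4 / 5 * (√s - R₁)) := h2
  rw [h3, Real.log_mul (hpos _ (by positivity)).ne' (Real.exp_pos _).ne', Real.log_exp]
  linarith

/-- The constant of `prS_lo`. -/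
def cS (e₁ : ℝ) : ℝ := if h : 0 < e₁ then (prS_lo h).choose else 0

theorem prS_ge {e₁ s : ℝ} (h : 0 < e₁) (hs : 0 < s) (hC : cS e₁ ≤ √s) :
    4 / 5 * √s - cS e₁ ≤ Real.log (prS e₁ s) := by
  have e : cS e₁ = (prS_lo h).choose := dif_pos h
  rw [e] at hC ⊢
  exact (prS_lo h).choose_spec.2 s hs hC

/-! ## The slope -/

/-- The constant of the slope (it depends only on the constants before `M₀`). -/
def K1 (q : Cst) : ℝ :=
  (|q.phL.1 0| + |q.phL.1 1| + |q.phL.1 2|) * (|q.L| + 1 + |q.ph.Cb|)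

theorem K1_nn (q : Cst) : 0 ≤ K1 q := by unfold K1; positivity

theorem cl_le {f : ℕ → ℝ} {i : ℕ} (h : i ≤ 2) : |f i| ≤ |f 0| + |f 1| + |f 2| := by
  have h0 := abs_nonneg (f 0)
  have h1 := abs_nonneg (f 1)
  have h2 := abs_nonneg (f 2)
  obtain rfl | rfl | rfl : i = 0 ∨ i = 1 ∨ i = 2 := by omega
  all_goals linarith

variable {n : ℕ} {q : Cst} {d : Pk n}

theorem phi_all (h : PkOk q d) (hM : 0 ≤ q.M₀) {j : ℕ} (h1 : 1 ≤ j) (h3 : j ≤ 3) (u : ℝ) :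
    |iteratedDeriv (j + 1) d.Φ u| ≤ K1 q * deriv d.Φ u := by
  obtain ⟨i, rfl⟩ : ∃ i, j = i + 1 := ⟨j - 1, by omega⟩
  have a1 := h.top.kL i u
  have a2 := h.top.k2 u
  have a3 := (h.top.k0 u).le
  have a4 : 0 ≤ deriv d.Φ u := by
    have h5 := h.top.l1 u
    have h6 := h.ph.isΦ.n1 u
    linarith
  have b1 : |q.phL.1 i| ≤ _ := cl_le (f := q.phL.1) (i := i) (by omega)
  calc |iteratedDeriv (i + 1 + 1) d.Φ u| ≤ q.phL.1 i * deriv (deriv d.Φ) u := a1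
    _ ≤ (|q.phL.1 0| + |q.phL.1 1| + |q.phL.1 2|) * ((|q.L| + 1 + |q.ph.Cb|) * deriv d.Φ u) := by
        refine mul_le_mul ((le_abs_self _).trans b1) (a2.trans ?_) a3 (by positivity)
        refine mul_le_mul_of_nonneg_right ?_ a4
        linarith [le_abs_self q.L, abs_nonneg q.ph.Cb]
    _ = _ := by unfold K1; ring

theorem phi_neg (h : PkOk q d) {j : ℕ} (h1 : 1 ≤ j) (h3 : j ≤ 3) {u : ℝ} (hu : u ≤ d.uth q / 2) :
    |iteratedDeriv (j + 1) d.Φ u| ≤ K1 q * Real.exp u := by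
  obtain ⟨i, rfl⟩ : ∃ i, j = i + 1 := ⟨j - 1, by omega⟩
  have a1 := h.top.kL i u
  have a2 : deriv (deriv d.Φ) u ≤ q.ph.Cb * Real.exp u := by
    rw [h.top.e2 u hu]
    exact h.ph.isΦ.k2 u
  have a3 := (h.top.k0 u).le
  have b1 : |q.phL.1 i| ≤ _ := cl_le (f := q.phL.1) (i := i) (by omega)
  calc |iteratedDeriv (i + 1 + 1) d.Φ u| ≤ q.phL.1 i * deriv (deriv d.Φ) u := a1
    _ ≤ (|q.phL.1 0| + |q.phL.1 1| + |q.phL.1 2|) * ((|q.L| + 1 + |q.ph.Cb|) * Real.exp u) := by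
        refine mul_le_mul ((le_abs_self _).trans b1) (a2.trans ?_) a3 (by positivity)
        refine mul_le_mul_of_nonneg_right ?_ (Real.exp_pos u).le
        linarith [le_abs_self q.ph.Cb, abs_nonneg q.L]
    _ = _ := by unfold K1; ring

/-- `l₀ ≥ 0`. -/
theorem l0_nn (h : PkOk q d) (hR : 1 ≤ q.R) (hC : 1 ≤ q.Ck) : 0 ≤ d.l₀ q := by
  have hR0 : 0 < q.R := by linarith
  have h1 : q.R ≤ d.kap := by
    refine le_trans ?_ h.kC
    calc q.R = q.R ^ (1 : ℝ) := (Real.rpow_one _).symm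
      _ ≤ q.R ^ q.Ck := Real.rpow_le_rpow_of_exponent_le hR hC
  have h2 : 0 ≤ Real.log (d.kap / q.R) := Real.log_nonneg ((one_le_div hR0).2 h1)
  have h3 := mul_nonneg hR0.le (neg_nonneg.2 h.G0)
  unfold Pk.l₀
  linarith

/-! ## The slow exponential from below -/

/-- **`∂_f Ψ` is large where `u ≥ -κ R / 40`.** -/
theorem G_lo {ℓ κ σ e₁ K : ℝ} (h : Fk n ℓ κ σ e₁ q d) {z : VV n} (hz : z ∈ UL ℓ κ q d)
    (c1 : cS e₁ ≤ κ * q.R / 40) (c2 : q.es ≤ 1 / 2) (c3 : 0 < q.r₁)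
    (cR : K * q.R ≤ 1 / 2 * Real.exp (κ / 40 * min q.R √(q.r₁ * σ * q.R / 6)))
    (hu : -(κ * q.R / 40) ≤ uf d.l z) : K * q.R ≤ q.D 1 0 (jφ q d z, jr d z) := by
  have hR := h.R0
  have hκ := h.κ0
  have hσ := h.σ0
  have r0 : 0 < r2 (gi d.s₁) z := lt_trans (by norm_num) (h.r2_400 hz)
  have j0 : 0 < jr d z := Real.sqrt_pos.2 r0
  have j1 : κ * q.R / 8 ≤ jr d z := by
    unfold jr
    rw [Real.le_sqrt' (by positivity)]
    exact (h.r2_ge hz).le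
  have j2 : jr d z ≤ 6 / σ * q.R := h.r_le hz
  have k1 : 4 / 5 * jr d z - cS e₁ ≤ Real.log (prS q.e₁ (r2 (gi d.s₁) z)) := by
    rw [h.he]
    refine prS_ge h.e0 r0 (c1.trans (le_trans ?_ j1))
    have : 0 ≤ κ * q.R := by positivity
    linarith
  have k2 : κ * q.R / 20 ≤ jφ q d z := by
    have e : jφ q d z = uf d.l z + Real.log (prS q.e₁ (r2 (gi d.s₁) z)) := rfl
    rw [e]
    linarith
  obtain ⟨k, m1, -, m3⟩ := h.pk.sl.u_form (jφ q d z, jr d z) j0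
  have m4 : κ / 40 * min q.R √(q.r₁ * σ * q.R / 6) ≤
      H768.W.uu q.τ q.r₁ (jφ q d z, jr d z) := by
    rw [m3]
    have n1 : min q.R √(q.r₁ * σ * q.R / 6) ≤ min 1 √(q.r₁ / jr d z) * q.R := by
      rcases le_total 1 √(q.r₁ / jr d z) with h1 | h1
      · rw [min_eq_left h1, one_mul]
        exact min_le_left _ _
      · rw [min_eq_right h1]
        refine (min_le_right _ _).trans ?_
        have e1 : √(q.r₁ / jr d z) * q.R = √(q.r₁ / jr d z * q.R ^ 2) := by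
          rw [Real.sqrt_mul (by positivity), Real.sqrt_sq hR.le]
        rw [e1]
        refine Real.sqrt_le_sqrt ?_
        rw [div_mul_eq_mul_div, le_div_iff₀ j0]
        calc q.r₁ * σ * q.R / 6 * jr d z ≤ q.r₁ * σ * q.R / 6 * (6 / σ * q.R) :=
              mul_le_mul_of_nonneg_left j2 (by positivity)
          _ = q.r₁ * q.R ^ 2 := by field_simp
    have n2 : 0 ≤ min 1 √(q.r₁ / jr d z) := le_min zero_le_one (Real.sqrt_nonneg _)
    have n3 : 0 ≤ κ * q.R / 20 := by positivity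
    calc κ / 40 * min q.R √(q.r₁ * σ * q.R / 6) ≤ κ / 40 * (min 1 √(q.r₁ / jr d z) * q.R) :=
          mul_le_mul_of_nonneg_left n1 (by positivity)
      _ = 1 / 2 * min 1 √(q.r₁ / jr d z) * (κ * q.R / 20) := by ring
      _ ≤ k * jφ q d z := mul_le_mul m1 k2 n3 (le_trans (by positivity) m1)
  have m5 := (abs_le.1 (h.pk.sl.G_u (jφ q d z, jr d z) j0)).1
  have m6 := Real.exp_le_exp.2 m4
  have m7 := Real.exp_pos (H768.W.uu q.τ q.r₁ (jφ q d z, jr d z))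
  nlinarith

/-! ## The conditions -/

/-- The constant of the pure derivatives of the slow exponential (absolute). -/
def Cs3 : ℝ := slow3.choose_spec.choose 3 + slow3.choose_spec.choose 4

theorem Cs3_nn : 0 ≤ Cs3 :=
  add_nonneg (slow3.choose_spec.choose_spec.2.1 3) (slow3.choose_spec.choose_spec.2.1 4)

/-- The threshold for `τ r₁`. -/
def Cs0 : ℝ := slow3.choose

theorem slow3' {τ r₁ : ℝ} (h1 : 0 < τ) (h2 : τ ≤ 1) (h3 : 0 < r₁) (h4 : Cs0 ≤ τ * r₁) {m : ℕ}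
    (hm : 3 ≤ m) (hm' : m ≤ 4) (z : ℝ × ℝ) (hz : 0 < z.2) (hG : 0 < H768.W.Dp τ r₁ 1 0 z) :
    |H768.W.Dp τ r₁ m 0 z| ≤ Cs3 * (H768.W.Dp τ r₁ 2 0 z ^ 2 / H768.W.Dp τ r₁ 1 0 z) := by
  obtain ⟨a1, a2, a3⟩ := slow3.choose_spec.choose_spec
  have b := a3 τ r₁ h1 h2 h3 h4 m hm z hz
  have c0 : slow3.choose_spec.choose m ≤ Cs3 := by
    unfold Cs3
    obtain rfl | rfl : m = 3 ∨ m = 4 := by omega
    · linarith [a2 4]
    · linarith [a2 3]
  exact b.trans (mul_le_mul_of_nonneg_right c0 (by positivity))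

/-- The scalar conditions. -/
structure Sc (n : ℕ) (q : Cst) (e : ℝ) : Prop where
  n1 : 1 ≤ n
  κ0 : 0 < q.κ₁
  κ1 : q.κ₁ ≤ 1
  σ0 : 0 < q.σ
  σ1 : q.σ ≤ 1 / 5000
  e0 : 0 < q.e₁
  M1 : 1 ≤ q.M₀
  s0 : 0 ≤ q.es
  s1 : q.es ≤ 1 / 2
  c0 : 0 < q.c'
  c1 : q.c' ≤ 1
  τ0 : 0 < q.τ
  τ1 : q.τ ≤ 1
  τr : Cs0 ≤ q.τ * q.r₁
  R1 : 1 ≤ q.R
  Rκ : 160 ≤ q.κ₁ * q.R
  C1 : 1 ≤ q.Ck
  ε0 : 0 ≤ q.ε
  ε1 : q.ε ≤ 1
  ε2 : n * q.ε ≤ 1 / 2
  ε3 : n * (cG n 12 * q.ε) ≤ 1 / 2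
  ep : 0 < e
  el : e ≤ 1
  cκ : 8 * q.c' ≤ e * q.κ₁
  Re : 64 ≤ q.κ₁ ^ 2 * e * q.R
  PR : K1 q * Real.exp (-(q.κ₁ * q.R / 40)) ≤ e / q.R
  GR : ((K1 q + 1) ^ 2 / e) * q.R ≤
    1 / 2 * Real.exp (q.κ₁ / 40 * min q.R √(q.r₁ * q.σ * q.R / 6))
  cR : cS q.e₁ ≤ q.κ₁ * q.R / 40

theorem Sc.fk {e : ℝ} (s : Sc n q e) (h : PkOk q d) {ℓ : ℝ} (hℓ : ℓ ≤ 5) :
    Fk n ℓ q.κ₁ q.σ q.e₁ q d where
  n1 := s.n1
  ℓ5 := hℓ
  κ0 := s.κ0
  κ1 := s.κ1
  σ0 := s.σ0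
  σ1 := s.σ1
  e0 := s.e0
  hσ := rfl
  he := rfl
  pk := h
  M1 := s.M1
  s0 := s.s0
  s1 := by linarith [s.s1]
  c0 := s.c0.le
  c1 := s.c1
  R1 := s.R1
  Rκ := s.Rκ
  ε0 := s.ε0
  ε1 := s.ε1
  ε2 := s.ε2
  ε3 := s.ε3

/-- **The conditions without top part.** -/
theorem Sc.fc0 {e : ℝ} (s : Sc n q e) (h : PkOk q d) {ℓ : ℝ} (hℓ : ℓ ≤ 5) :
    FC0 n ℓ q.κ₁ q.σ q.e₁ Cs3 q d e where
  toFk := s.fk h hℓ
  ep := s.ep
  el := s.el
  cκ := s.cκ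
  Re := s.Re
  d3 m hm hm' z hz := slow3' s.τ0 s.τ1 (by
    have := s.M1
    have := s.c0
    unfold Cst.r₁
    positivity) s.τr hm hm' z hz (h.sl.G_pos z hz)
  sn z _ := (h.ph.isΦ.n1 _).trans (h.top.l1 _)
  bP z hz j h1 h3 := by
    have fk := s.fk h hℓ
    have hR := fk.R0
    have hκ := s.κ0
    have hM := s.M1
    have hr₁ : 0 < q.r₁ := by
      have := s.c0
      unfold Cst.r₁
      positivity
    have r0 : 0 < jr d z := Real.sqrt_pos.2 (lt_trans (by norm_num) (fk.r2_400 hz))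
    have G0 : 0 < q.D 1 0 (jφ q d z, jr d z) := h.sl.G_pos _ r0
    have sn : q.M₀ ≤ deriv d.Φ (uf d.l z) := (h.ph.isΦ.n1 _).trans (h.top.l1 _)
    have n1 : 1 ≤ nn q d z := by unfold nn; linarith
    rcases le_total (uf d.l z) (-(q.κ₁ * q.R / 40)) with hu | hu
    · have e1 := phi_neg h h1 h3 (u := uf d.l z) (by
        have := l0_nn h s.R1 s.C1
        have : 0 ≤ q.κ₁ * q.R := by positivity
        unfold Pk.uth
        linarith)
      refine e1.trans (le_trans ?_ (sz_least n1 s.R1 s.ep.le s.el rfl h1 h3))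
      exact (mul_le_mul_of_nonneg_left (Real.exp_le_exp.2 hu) (K1_nn q)).trans s.PR
    · have e1 := phi_all h (by linarith) h1 h3 (uf d.l z)
      have e2 := G_lo fk hz s.cR s.s1 hr₁ s.GR hu
      have e3 : (K1 q + 1) ^ 2 / e * q.R ≤ nn q d z := by unfold nn; linarith
      have e4 : K1 q + 1 ≤ bb q e (nn q d z) := by
        unfold bb
        refine Real.le_sqrt_of_sq_le ?_
        rw [le_div_iff₀ hR]
        have := mul_le_mul_of_nonneg_left e3 s.ep.le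
        have e5 : e * ((K1 q + 1) ^ 2 / e * q.R) = (K1 q + 1) ^ 2 * q.R := by
          have := s.ep.ne'
          field_simp
        linarith
      have e5 := sz_big (m := nn q d z) (by linarith) (K1_nn q) e4 h1
      refine e1.trans (le_trans (mul_le_mul_of_nonneg_left ?_ (K1_nn q)) e5)
      unfold nn
      linarith

/-- **The conditions of the far region.** -/
theorem Sc.fc {e : ℝ} (s : Sc n q e) (t : ScT q e) (h : PkOk q d) :
    FC n q.κ₁ q.σ q.e₁ Cs3 q d e where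
  toFC0 := s.fc0 h (by norm_num)
  sΘ t := h.Θd0 (by linarith [s.R1]) t
  bX z hz j h1 h3 := by
    have f := s.fc0 h (ℓ := 3) (by norm_num)
    refine th_sz h s.σ0 t ?_ h1 h3
    have := f.sn z hz
    have := f.G0 hz
    unfold nx nn
    linarith
  bY z hz j h1 h3 := by
    have f := s.fc0 h (ℓ := 3) (by norm_num)
    refine th_sz h s.σ0 t ?_ h1 h3
    have := f.sn z hz
    have := f.G0 hz
    unfold ny nn
    linarith

end Vale.Agent.P088.R2.H269.INF
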