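import Vale.Agent.P088.R2.H768.W.FarJ
import Vale.Agent.P088.R2.H657.W.Fam
import Vale.Agent.P088.R2.H475.INF.LevD

/-!
# P088, stage 3, zone at infinity: the far region, symbols of `l`, `r`, `φ`
-/

open Set Filter
open scoped ContDiff Topology Matrix

noncomputable section

namespace Vale.Agent.P088.R2.H269.INF

open Vale.Agent.P088.LR Vale.Agent.P088.HY Vale.Agent.P088.R2.H464.Cu
open Vale.Agent.P088.R2.H644.Sy Vale.Agent.P088.R2.H644.Ch Vale.Agent.P088.R2.H644.Ep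
open Vale.Agent.P088.R2.H31.EP Vale.Agent.P088.R2.H475
open Vale.Agent.P088.R2.H961.GW Vale.Agent.P088.R2.H657.W

variable {n : ℕ} {σ R kap Gs : ℝ}

/-- The ball `|w| < 2`. -/
def Bw (n : ℕ) (σ R : ℝ) : Set (V n) := {x | HY.sq (wR n σ R x) < 4}

theorem wR_cont : Continuous (wR n σ R) := by
  unfold wR wv
  fun_prop

theorem Bw_open : IsOpen (Bw n σ R) := by
  have : Continuous fun x => HY.sq (wR n σ R x) := by
    unfold HY.sq
    have h := wR_cont (n := n) (σ := σ) (R := R)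
    fun_prop
  exact isOpen_lt this continuous_const

/-- Levels below `l₀ + 5 R` are in the ball. -/
theorem Bw_of (h0 : 0 < σ) (h1 : σ ≤ 1 / 5000) (hR : 0 < R) {x : V n}
    (h : levG n σ R kap Gs x < lam0 R kap Gs + 5 * R) : x ∈ Bw n σ R := by
  by_contra hc
  have hc' : 4 ≤ HY.sq (wR n σ R x) := not_lt.1 hc
  have h5 : th1 σ ≤ HY.sq (wR n σ R x) := by
    have := th1_lt h0 h1
    linarith
  rw [levG_lit h0 h1 h5] at h
  have h6 : R / (2 * σ) * (HY.sq (wR n σ R x) - 1) < 5 * R := by linarith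
  have h7 : R / (2 * σ) * 3 ≤ R / (2 * σ) * (HY.sq (wR n σ R x) - 1) :=
    mul_le_mul_of_nonneg_left (by linarith) (by positivity)
  have h8 : R / (2 * σ) * 3 = 3 * R * (1 / (2 * σ)) := by field_simp
  have h9 : 2 ≤ 1 / (2 * σ) := by
    rw [le_div_iff₀ (by positivity)]; linarith
  have h10 : 3 * R * 2 ≤ 3 * R * (1 / (2 * σ)) := by gcongr
  linarith

/-- The ball is convex. -/
theorem mid_Bw {z : VV n} (hx : z.1 ∈ Bw n σ R) (hy : z.2 ∈ Bw n σ R) : mid z ∈ Bw n σ R := by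
  have e : wR n σ R (mid z) = (1 / 2 : ℝ) • (wR n σ R z.1 + wR n σ R z.2) := by
    funext i
    simp only [wR, wv, mid_apply, Pi.smul_apply, Pi.add_apply, smul_eq_mul]
    ring
  have h1 : √(HY.sq (wR n σ R z.1)) < 2 := by
    rw [Real.sqrt_lt' two_pos]
    norm_num
    exact hx
  have h2 : √(HY.sq (wR n σ R z.2)) < 2 := by
    rw [Real.sqrt_lt' two_pos]
    norm_num
    exact hy
  have h3 := en_add (wR n σ R z.1) (wR n σ R z.2)
  have h4 : √(HY.sq (wR n σ R (mid z))) < 2 := by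
    rw [e, en_smul, abs_of_pos (by norm_num)]
    linarith
  rw [Real.sqrt_lt' two_pos] at h4
  norm_num at h4
  exact h4

/-- The size of `x` in the ball. -/
theorem Bw_norm (h0 : 0 < σ) (hR : 0 < R) {x : V n} (hx : x ∈ Bw n σ R) :
    ‖x‖ / R ≤ 1 + 3 / σ := by
  have e : ∀ i, x i = R * (T3.e0 n i + σ⁻¹ * (wR n σ R x i - T3.e0 n i)) := by
    intro i
    simp only [wR, wv, Pi.smul_apply, smul_eq_mul]
    field_simp
    ring
  have he : ∀ i, |T3.e0 n i| ≤ 1 := by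
    intro i
    unfold T3.e0
    split_ifs <;> simp
  have hw : ∀ i, |wR n σ R x i| ≤ 2 := by
    intro i
    have h1 : wR n σ R x i ^ 2 ≤ HY.sq (wR n σ R x) := by
      unfold HY.sq
      exact Finset.single_le_sum (f := fun i => wR n σ R x i ^ 2) (fun _ _ => sq_nonneg _)
        (Finset.mem_univ i)
    have h2 : HY.sq (wR n σ R x) < 4 := hx
    exact abs_le_of_sq_le_sq (by linarith) (by norm_num)
  rw [div_le_iff₀ hR, pi_norm_le_iff_of_nonneg (by positivity)]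
  intro i
  rw [Real.norm_eq_abs, e i, abs_mul, abs_of_pos hR, mul_comm]
  refine mul_le_mul_of_nonneg_right ?_ hR.le
  refine (abs_add_le _ _).trans (add_le_add (he i) ?_)
  rw [abs_mul, abs_of_pos (inv_pos.2 h0), div_eq_inv_mul]
  refine mul_le_mul_of_nonneg_left ?_ (inv_pos.2 h0).le
  have := abs_sub (wR n σ R x i) (T3.e0 n i)
  linarith [he i, hw i]

/-- The symbol bounds of the level. -/
theorem sf_lev {α : Type*} (hn : 1 ≤ n) (h0 : 0 < σ) (h1 : σ ≤ 1 / 5000) (R kap Gs : α → ℝ)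
    (hR : ∀ a, 0 < R a) (k : ℕ) : Sf (fun a => Bw n σ (R a)) (fun a _ => R a) (fun _ _ => 1) k
      (fun a => fderiv ℝ (levG n σ (R a) (kap a) (Gs a))) where
  sm a := ((levG_smooth h0 h1).fderiv_right (m := ∞) (by norm_num)).contDiffOn
  bd j _ := by
    rcases j with _ | j
    · obtain ⟨C, hC0, hC⟩ := levG_bound1 (n := n) hn h0 h1
      refine ⟨C * (2 + 3 / σ), fun a z hz => ?_⟩
      rw [norm_iteratedFDeriv_zero, pow_zero, mul_one, mul_one]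
      refine (hC (R a) (kap a) (Gs a) (hR a) z).trans (mul_le_mul_of_nonneg_left ?_ hC0.le)
      have := Bw_norm h0 (hR a) hz
      linarith
    · obtain ⟨C, hC0, hC⟩ := levG_bound (n := n) hn h0 h1 j
      refine ⟨C, fun a z hz => ?_⟩
      rw [norm_iteratedFDeriv_fderiv, one_mul]
      exact hC (R a) (kap a) (Gs a) (hR a) z

/-- The far region below the level `l₀ + ℓ R`. -/
def UL (ℓ κ : ℝ) (q : Cst) (d : Pk n) : Set (VV n) :=
  {z | d.l z.1 < d.l₀ q + ℓ * q.R ∧ d.l z.2 < d.l₀ q + ℓ * q.R ∧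
    (κ * q.R / 4) ^ 2 < HY.sq (z.1 - z.2)}

/-- The far region. -/
abbrev UF (κ : ℝ) (q : Cst) (d : Pk n) : Set (VV n) := UL 3 κ q d

/-- The data of the far region: the constants `κ = κ₁`, `σ`, `e₁` are fixed. -/
structure Fk (n : ℕ) (ℓ κ σ e₁ : ℝ) (q : Cst) (d : Pk n) : Prop where
  n1 : 1 ≤ n
  ℓ5 : ℓ ≤ 5
  κ0 : 0 < κ
  κ1 : κ ≤ 1
  σ0 : 0 < σ
  σ1 : σ ≤ 1 / 5000
  e0 : 0 < e₁
  hσ : q.σ = σ
  he : q.e₁ = e₁
  pk : PkOk q d
  M1 : 1 ≤ q.M₀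
  s0 : 0 ≤ q.es
  s1 : q.es ≤ 1
  c0 : 0 ≤ q.c'
  c1 : q.c' ≤ 1
  R1 : 1 ≤ q.R
  Rκ : 160 ≤ κ * q.R
  ε0 : 0 ≤ q.ε
  ε1 : q.ε ≤ 1
  ε2 : n * q.ε ≤ 1 / 2
  ε3 : n * (cG n 12 * q.ε) ≤ 1 / 2

namespace Fk

variable {ℓ κ e₁ : ℝ} {q : Cst} {d : Pk n}

theorem R0 (h : Fk n ℓ κ σ e₁ q d) : 0 < q.R := one_pos.trans_le h.R1

theorem lit (h : Fk n ℓ κ σ e₁ q d) : d.l = levG n σ q.R d.kap d.Gs := by
  rw [h.pk.lev.lit, h.hσ]

theorem UF_open (h : Fk n ℓ κ σ e₁ q d) : IsOpen (UL ℓ κ q d) := by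
  have hl : Continuous d.l := h.pk.lev.sm.continuous
  have h1 : Continuous fun z : VV n => d.l z.1 := hl.comp continuous_fst
  have h2 : Continuous fun z : VV n => d.l z.2 := hl.comp continuous_snd
  have h3 : Continuous fun z : VV n => HY.sq (z.1 - z.2) := by
    unfold HY.sq
    fun_prop
  exact (isOpen_lt h1 continuous_const).inter ((isOpen_lt h2 continuous_const).inter
    (isOpen_lt continuous_const h3))

theorem x_mem (h : Fk n ℓ κ σ e₁ q d) {z : VV n} (hz : z ∈ UL ℓ κ q d) : z.1 ∈ Bw n σ q.R := by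
  refine Bw_of (kap := d.kap) (Gs := d.Gs) h.σ0 h.σ1 h.R0 ?_
  have := hz.1
  rw [h.lit] at this
  exact this.trans_le (add_le_add_right (mul_le_mul_of_nonneg_right h.ℓ5 h.R0.le) _)

theorem y_mem (h : Fk n ℓ κ σ e₁ q d) {z : VV n} (hz : z ∈ UL ℓ κ q d) : z.2 ∈ Bw n σ q.R := by
  refine Bw_of (kap := d.kap) (Gs := d.Gs) h.σ0 h.σ1 h.R0 ?_
  have := hz.2.1
  rw [h.lit] at this
  exact this.trans_le (add_le_add_right (mul_le_mul_of_nonneg_right h.ℓ5 h.R0.le) _)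

theorem tr (h : Fk n ℓ κ σ e₁ q d) : TR 12 q.ε q.R d.s₁ := H657.W.Rg.t1 h.pk.rg

theorem tr' (h : Fk n ℓ κ σ e₁ q d) : TR 12 q.ε q.R d.s₂ := H657.W.Rg.t2 h.pk.rg

theorem dt_eq (z : VV n) : dt (dif z) (dif z) = HY.sq (z.1 - z.2) := by
  unfold dt HY.sq
  exact Finset.sum_congr rfl fun i _ => by rw [dif_apply]; simp only [Pi.sub_apply]; ring

/-- `|q|² / 4 ≤ r² ≤ 2 |q|²`. -/
theorem r2_bd (h : Fk n ℓ κ σ e₁ q d) (z : VV n) :
    1 / 4 * HY.sq (z.1 - z.2) ≤ r2 (gi d.s₁) z ∧ r2 (gi d.s₁) z ≤ 2 * HY.sq (z.1 - z.2) := by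
  have hN := (h.tr.inv h.R0 h.ε1 h.ε2).nr (by norm_num) univ
  have := rq_bd hN h.ε3 (mem_univ (mid z))
  rw [dt_eq] at this
  unfold r2
  constructor <;> linarith [this.1, this.2]

theorem r2_ge (h : Fk n ℓ κ σ e₁ q d) {z : VV n} (hz : z ∈ UL ℓ κ q d) :
    (κ * q.R / 8) ^ 2 < r2 (gi d.s₁) z := by
  have h1 := (h.r2_bd z).1
  have h2 := hz.2.2
  nlinarith

theorem r2_400 (h : Fk n ℓ κ σ e₁ q d) {z : VV n} (hz : z ∈ UL ℓ κ q d) : 400 < r2 (gi d.s₁) z := by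
  have h1 := h.r2_ge hz
  have h2 := h.Rκ
  nlinarith

theorem r_le (h : Fk n ℓ κ σ e₁ q d) {z : VV n} (hz : z ∈ UL ℓ κ q d) :
    √(r2 (gi d.s₁) z) ≤ 6 / σ * q.R := by
  have h1 := (h.r2_bd z).2
  have h2 := en_sub_le_wR (n := n) h.σ0 h.R0 z.1 z.2
  have hx : √(HY.sq (wR n σ q.R z.1)) ≤ 2 := by
    rw [Real.sqrt_le_left two_pos.le]
    have : HY.sq (wR n σ q.R z.1) < 4 := h.x_mem hz
    linarith
  have hy : √(HY.sq (wR n σ q.R z.2)) ≤ 2 := by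
    rw [Real.sqrt_le_left two_pos.le]
    have : HY.sq (wR n σ q.R z.2) < 4 := h.y_mem hz
    linarith
  have hR := h.R0
  have hσ := h.σ0
  have h3 : √(HY.sq (z.1 - z.2)) ≤ q.R / σ * 4 :=
    h2.trans (mul_le_mul_of_nonneg_left (by linarith) (by positivity))
  have h4 : √(r2 (gi d.s₁) z) ≤ √(2 * HY.sq (z.1 - z.2)) := Real.sqrt_le_sqrt h1
  have h5 : √(2 * HY.sq (z.1 - z.2)) = √2 * √(HY.sq (z.1 - z.2)) :=
    Real.sqrt_mul (by norm_num) _
  have h6 : √2 ≤ 3 / 2 := by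
    rw [Real.sqrt_le_left (by norm_num)]; norm_num
  have h7 : √2 * √(HY.sq (z.1 - z.2)) ≤ 3 / 2 * (q.R / σ * 4) :=
    mul_le_mul h6 h3 (Real.sqrt_nonneg _) (by norm_num)
  calc √(r2 (gi d.s₁) z) ≤ 3 / 2 * (q.R / σ * 4) := by rw [h5] at h4; linarith
    _ = _ := by ring

end Fk

section fam

variable {α : Type*} {ℓ κ e₁ : ℝ} {q : α → Cst} {d : α → Pk n}

/-- Helper644's `Lg`. -/
theorem lg (h : ∀ a, Fk n ℓ κ σ e₁ (q a) (d a)) :
    Lg (fun a => Bw n σ (q a).R) (fun a => UL ℓ κ (q a) (d a)) (fun a => (q a).R)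
      (fun a => (d a).l) (fun a => gi (d a).s₁) (6 / σ) 3 := by
  by_cases ha : Nonempty α
  · obtain ⟨a₀⟩ := ha
    have e : (fun a => fderiv ℝ ((d a).l)) =
        fun a => fderiv ℝ (levG n σ (q a).R (d a).kap (d a).Gs) := by
      funext a
      rw [(h a).lit]
    refine lg_of (K := 12) (e := fun a => (q a).ε) (S := fun a => (d a).s₁)
      (fun a => (h a).tr) (by norm_num) (by norm_num) (fun a => Bw_open)
      (fun a => (h a).UF_open) (fun a => (h a).R1) (fun a => (h a).ε0) (fun a => (h a).ε1)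
      (fun a => (h a).ε2) (fun a => (h a).ε3) (fun a z hz => (h a).x_mem hz)
      (fun a z hz => (h a).y_mem hz) (fun a z hz => mid_Bw ((h a).x_mem hz) ((h a).y_mem hz))
      (fun a => ?_) ?_ (fun a z hz => (h a).r_le hz)
    · exact (h a).pk.lev.sm.contDiffOn
    · rw [e]
      exact sf_lev (h a₀).n1 (h a₀).σ0 (h a₀).σ1 _ _ _ (fun a => (h a).R0) 3
  · have := not_nonempty_iff.1 ha
    exact ⟨fun a => isEmptyElim a, fun a => isEmptyElim a, fun a => isEmptyElim a,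
      fun a => isEmptyElim a, fun a => isEmptyElim a, fun a => isEmptyElim a,
      fun a => isEmptyElim a, ⟨fun a => isEmptyElim a, fun j _ => ⟨0, fun a => isEmptyElim a⟩⟩,
      fun i j => ⟨fun a => isEmptyElim a, fun j _ => ⟨0, fun a => isEmptyElim a⟩⟩,
      fun a => isEmptyElim a, fun a => isEmptyElim a⟩

/-- Helper768's family. -/
theorem fj (κe : 0 < e₁) (h : ∀ a, Fk n ℓ κ σ e₁ (q a) (d a)) :
    H768.FarJ.Fj q d e₁ (6 / σ) 400 (fun a => Bw n σ (q a).R) (fun a => UL ℓ κ (q a) (d a)) 0 where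
  e0 := κe
  e a := (h a).he
  c0 := by norm_num
  sl a := (h a).pk.sl
  M0 a := by have := (h a).M1; linarith
  s0 a := (h a).s0
  s1 a := (h a).s1
  c1 a := (h a).c1
  lg := lg h
  h0 a z hz := (h a).r2_400 hz

/-- **The symbols at the scale `R`.** -/
theorem sym (κe : 0 < e₁) (h : ∀ a, Fk n ℓ κ σ e₁ (q a) (d a)) :
    (∀ a, ContDiffOn ℝ ∞ (uf (d a).l) (UL ℓ κ (q a) (d a))) ∧
    (∀ a, ContDiffOn ℝ ∞ (H768.FarJ.jφ (q a) (d a)) (UL ℓ κ (q a) (d a))) ∧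
    (∀ a, ContDiffOn ℝ ∞ (H768.FarJ.jr (d a)) (UL ℓ κ (q a) (d a))) ∧
    Sf (fun a => UL ℓ κ (q a) (d a)) (fun a _ => (q a).R) (fun _ _ => 1) 3
      (fun a => fderiv ℝ (uf (d a).l)) ∧
    Sf (fun a => UL ℓ κ (q a) (d a)) (fun a _ => (q a).R) (fun _ _ => 1) 3
      (fun a => fderiv ℝ (H768.FarJ.jφ (q a) (d a))) ∧
    Sf (fun a => UL ℓ κ (q a) (d a)) (fun a _ => (q a).R) (fun _ _ => 1) 3
      (fun a => fderiv ℝ (H768.FarJ.jr (d a))) := by
  have hl := lg h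
  obtain ⟨p1, p2, p3⟩ := (fj κe h).ph
  have r0 : ∀ a, ∀ z ∈ UL ℓ κ (q a) (d a), 0 < H768.FarJ.jr (d a) z := fun a z hz =>
    (fj κe h).r0 hz
  have hR : ∀ a, ∀ z ∈ UL ℓ κ (q a) (d a), (0 : ℝ) < (q a).R := fun a _ _ => (h a).R0
  have hs : ∀ a, ∀ z ∈ UL ℓ κ (q a) (d a), (q a).R ≤ 8 / κ * H768.FarJ.jr (d a) z := by
    intro a z hz
    have κ0 := (h a).κ0
    have h1 : κ * (q a).R / 8 ≤ H768.FarJ.jr (d a) z := by
      unfold H768.FarJ.jr
      rw [Real.le_sqrt' (by have := (h a).R0; positivity)]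
      exact ((h a).r2_ge hz).le
    rw [div_mul_eq_mul_div, le_div_iff₀ κ0]
    linarith
  refine ⟨fun a => hl.sm_uf a, p1, p3.sm, hl.s_uf, ?_, ?_⟩
  · exact p2.mono_ρ r0 hR (fun _ _ _ => zero_le_one) hs
  · have h1 := (p3.fd hl.oU).wcongr (g₁ := fun _ _ => 1) fun a z hz => by
      rw [mul_inv_cancel₀ (r0 a z hz).ne']
    exact h1.mono_ρ r0 hR (fun _ _ _ => zero_le_one) hs

end fam

end Vale.Agent.P088.R2.H269.INF
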