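import Vale.Agent.P088.R2.H269.INF.Ev

/-!
# P088, stage 3, zone at infinity: the gradient of `r` at far pairs

`|∇_x r| ≤ 1.01`, `|∇_y r| ≤ 1.01` (euclidean norms).
-/

open Set Filter
open scoped ContDiff Topology Matrix

noncomputable section

namespace Vale.Agent.P088.R2.H269.INF

open Vale.Agent.P088.LR Vale.Agent.P088.HY Vale.Agent.P088.R2.H464.Cu
open Vale.Agent.P088.R2.H31.EP Vale.Agent.P088.R2.H475 Vale.Agent.P088.R2.H768.FarJ
open Vale.Agent.P088.R2.H961.GW Vale.Agent.P088.R2.H657.W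

variable {n : ℕ}

/-- `|S(v, v) - |v|²| ≤ n ε |v|²`. -/
theorem bf_one {S : Matrix (Fin n) (Fin n) ℝ} {ε : ℝ}
    (h : ∀ i j, |S i j - (1 : Matrix (Fin n) (Fin n) ℝ) i j| ≤ ε) (v : V n) :
    |bf S v v - HY.sq v| ≤ n * ε * HY.sq v := by
  have e1 : bf S v v = HY.sq v + bf (S - 1) v v := by
    unfold bf HY.sq
    simp only [Matrix.sub_apply, sub_mul, Finset.sum_sub_distrib, Matrix.one_apply]
    simp [pow_two]
  rw [e1, add_sub_cancel_left]
  unfold bf
  have h2 : ∀ i j, |(S - 1) i j * v i * v j| ≤ ε * (1 / 2 * v i ^ 2 + 1 / 2 * v j ^ 2) := by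
    intro i j
    rw [abs_mul, abs_mul, mul_assoc]
    have h3 : |v i| * |v j| ≤ 1 / 2 * v i ^ 2 + 1 / 2 * v j ^ 2 := by
      nlinarith [sq_nonneg (|v i| - |v j|), sq_abs (v i), sq_abs (v j)]
    have h4 : |(S - 1) i j| ≤ ε := h i j
    exact mul_le_mul h4 h3 (by positivity) ((abs_nonneg _).trans h4)
  have h5 : ∀ i, |∑ j, (S - 1) i j * v i * v j| ≤
      ε * (1 / 2 * (n * v i ^ 2) + 1 / 2 * HY.sq v) := by
    intro i
    refine (Finset.abs_sum_le_sum_abs _ _).trans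
      ((Finset.sum_le_sum fun j _ => h2 i j).trans (le_of_eq ?_))
    rw [← Finset.mul_sum, Finset.sum_add_distrib]
    simp only [Finset.sum_const, Finset.card_univ, Fintype.card_fin, nsmul_eq_mul]
    rw [← Finset.mul_sum]
    unfold HY.sq
    ring
  refine (Finset.abs_sum_le_sum_abs _ _).trans
    ((Finset.sum_le_sum fun i _ => h5 i).trans (le_of_eq ?_))
  rw [← Finset.mul_sum, Finset.sum_add_distrib]
  simp only [Finset.sum_const, Finset.card_univ, Fintype.card_fin, nsmul_eq_mul]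
  have e2 : ∑ i, 1 / 2 * ((n : ℝ) * v i ^ 2) = 1 / 2 * (n * HY.sq v) := by
    unfold HY.sq
    rw [Finset.mul_sum, Finset.mul_sum]
  rw [e2]
  ring

/-- A component is at most the euclidean norm. -/
theorem cmp_en (v : V n) (i : Fin n) : |v i| ≤ √(HY.sq v) := by
  refine Real.abs_le_sqrt ?_
  unfold HY.sq
  exact Finset.single_le_sum (f := fun i => v i ^ 2) (fun _ _ => sq_nonneg _) (Finset.mem_univ i)

/-- The euclidean norm of a vector with small components. -/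
theorem en_sup {v : V n} {c : ℝ} (hc : 0 ≤ c) (h : ∀ i, |v i| ≤ c) : √(HY.sq v) ≤ n * c := by
  rw [Real.sqrt_le_left (by positivity)]
  have h1 : HY.sq v ≤ ∑ _i : Fin n, c ^ 2 := by
    unfold HY.sq
    exact Finset.sum_le_sum fun i _ => sq_le_sq' (by linarith [abs_le.1 (h i)]) (abs_le.1 (h i)).2
  simp only [Finset.sum_const, Finset.card_univ, Fintype.card_fin, nsmul_eq_mul] at h1
  have h2 : (n : ℝ) ≤ n ^ 2 := by
    rcases Nat.eq_zero_or_pos n with rfl | hn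
    · simp
    · have : (1 : ℝ) ≤ n := by exact_mod_cast hn
      nlinarith
  have h3 : (n : ℝ) * c ^ 2 ≤ n ^ 2 * c ^ 2 := mul_le_mul_of_nonneg_right h2 (sq_nonneg c)
  linarith [mul_pow (n : ℝ) c 2]

/-- The gradient of `½ g(q, q)` in one slot: `s = ±1`. -/
theorem gr_rq {g : MF n} {δ ρ N : ℝ} (b0 : ∀ x i j, |g x i j - (1 : Matrix (Fin n) (Fin n) ℝ) i j| ≤ δ)
    (b1 : ∀ x k i j, |pd k (fun y => g y i j) x| ≤ ρ) (hδ : 0 ≤ δ) (hρ : 0 ≤ ρ)
    {s : ℝ} (hs : |s| ≤ 1) (x q : V n) (hq : √(HY.sq q) ≤ N) :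
    √(HY.sq fun k : Fin n => s * bf (g x) (Pi.single k 1) q +
      1 / 2 * (1 / 2 * ∑ i, ∑ j, pd k (fun y => g y i j) x * q i * q j)) ≤
      (1 + n ^ 2 * δ + n ^ 3 * ρ * N) * √(HY.sq q) := by
  set r := √(HY.sq q) with hr
  have r0 : 0 ≤ r := Real.sqrt_nonneg _
  have hn0 : (0 : ℝ) ≤ n := Nat.cast_nonneg n
  -- the three parts
  set A : V n := fun k => s * ∑ j, (g x k j - (1 : Matrix (Fin n) (Fin n) ℝ) k j) * q j with hA
  set B : V n := fun k =>
    1 / 2 * (1 / 2 * ∑ i, ∑ j, pd k (fun y => g y i j) x * q i * q j) with hB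
  have e : (fun k : Fin n => s * bf (g x) (Pi.single k 1) q +
      1 / 2 * (1 / 2 * ∑ i, ∑ j, pd k (fun y => g y i j) x * q i * q j)) = s • q + A + B := by
    funext k
    simp only [Pi.add_apply, Pi.smul_apply, smul_eq_mul, hA, hB]
    congr 1
    have e1 : bf (g x) (Pi.single k 1) q = ∑ j, g x k j * q j := by
      unfold bf
      rw [Finset.sum_eq_single k]
      · simp
      · intro b _ hb
        simp [hb]
      · simp
    rw [e1, ← mul_add]
    congr 1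
    have e2 : q k = ∑ j, (1 : Matrix (Fin n) (Fin n) ℝ) k j * q j := by
      simp [Matrix.one_apply]
    conv_rhs => rw [e2]
    rw [← Finset.sum_add_distrib]
    exact Finset.sum_congr rfl fun j _ => by ring
  rw [e]
  have a1 : √(HY.sq A) ≤ n * (n * (δ * r)) := by
    refine en_sup (by positivity) fun k => ?_
    rw [hA]
    simp only
    rw [abs_mul]
    refine (mul_le_of_le_one_left (abs_nonneg _) hs).trans ?_
    refine (Finset.abs_sum_le_sum_abs _ _).trans ?_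
    have h2 : ∀ j ∈ Finset.univ, |(g x k j - (1 : Matrix (Fin n) (Fin n) ℝ) k j) * q j| ≤
        δ * r := fun j _ => by
      rw [abs_mul]
      exact mul_le_mul (b0 x k j) (cmp_en q j) (abs_nonneg _) hδ
    refine (Finset.sum_le_sum h2).trans (le_of_eq ?_)
    simp
  have a2 : √(HY.sq B) ≤ n * (n * (n * (ρ * r * r))) := by
    refine en_sup (by positivity) fun k => ?_
    rw [hB]
    simp only
    have h2 : |∑ i, ∑ j, pd k (fun y => g y i j) x * q i * q j| ≤ n * (n * (ρ * r * r)) := by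
      refine le_trans (sum_le2 (c := ρ * r * r) fun i j => ?_) (le_of_eq (by ring))
      rw [abs_mul, abs_mul]
      exact mul_le_mul (mul_le_mul (b1 x k i j) (cmp_en q i) (abs_nonneg _) hρ) (cmp_en q j)
        (abs_nonneg _) (by positivity)
    rw [abs_mul, abs_mul, abs_of_pos (by norm_num : (0 : ℝ) < 1 / 2)]
    have h3 := abs_nonneg (∑ i, ∑ j, pd k (fun y => g y i j) x * q i * q j)
    linarith
  have a3 : √(HY.sq (s • q)) ≤ r := by
    rw [en_smul]
    exact mul_le_of_le_one_left r0 hs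
  have a4 := en_add (s • q + A) B
  have a5 := en_add (s • q) A
  have a6 : n * (n * (n * (ρ * r * r))) ≤ n ^ 3 * ρ * N * r := by
    have : ρ * r * r ≤ ρ * N * r := by gcongr
    calc (n : ℝ) * (n * (n * (ρ * r * r))) ≤ n * (n * (n * (ρ * N * r))) := by gcongr
      _ = _ := by ring
  calc √(HY.sq (s • q + A + B)) ≤ r + n * (n * (δ * r)) + n ^ 3 * ρ * N * r := by linarith
    _ = _ := by ring

section dr

variable {σ ℓ κ e₁ : ℝ} {q : Cst} {d : Pk n}

theorem q_le (h : Fk n ℓ κ σ e₁ q d) {z : VV n} (hz : z ∈ UL ℓ κ q d) :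
    √(HY.sq (z.1 - z.2)) ≤ q.R / σ * 4 := by
  have h2 := en_sub_le_wR (n := n) h.σ0 h.R0 z.1 z.2
  have hx : √(HY.sq (wR n σ q.R z.1)) ≤ 2 := by
    rw [Real.sqrt_le_left two_pos.le]
    have : HY.sq (wR n σ q.R z.1) < 4 := h.x_mem hz
    linarith
  have hy : √(HY.sq (wR n σ q.R z.2)) ≤ 2 := by
    rw [Real.sqrt_le_left two_pos.le]
    have : HY.sq (wR n σ q.R z.2) < 4 := h.y_mem hz
    linarith
  have hR := h.R0
  have hσ := h.σ0
  exact h2.trans (mul_le_mul_of_nonneg_left (by linarith) (by positivity))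

/-- `∇ r` in terms of `∇ rq`. -/
theorem fd_jr {z : VV n} (hd : DifferentiableAt ℝ (rq (gi d.s₁)) z) (h0 : 0 < r2 (gi d.s₁) z)
    (w : VV n) : fderiv ℝ (jr d) z w = (jr d z)⁻¹ * fderiv ℝ (rq (gi d.s₁)) z w := by
  have h1 : HasFDerivAt (r2 (gi d.s₁)) ((2 : ℝ) • fderiv ℝ (rq (gi d.s₁)) z) z :=
    hd.hasFDerivAt.const_mul 2
  have h2 : HasFDerivAt (jr d) ((1 / (2 * √(r2 (gi d.s₁) z))) •
      (2 : ℝ) • fderiv ℝ (rq (gi d.s₁)) z) z := h1.sqrt h0.ne'
  rw [h2.fderiv]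
  simp only [_root_.smul_apply, smul_eq_mul]
  have : √(r2 (gi d.s₁) z) ≠ 0 := (Real.sqrt_pos.2 h0).ne'
  unfold jr
  field_simp

/-- The two gradients of `rq`: `s = 1` for the first slot, `s = -1` for the second. -/
theorem fd_rq (h : Fk n ℓ κ σ e₁ q d) (z : VV n) :
    DifferentiableAt ℝ (rq (gi d.s₁)) z ∧
    (∀ k : Fin n, fderiv ℝ (rq (gi d.s₁)) z (Pi.single k 1, 0) =
      1 * bf (gi d.s₁ (mid z)) (Pi.single k 1) (dif z) + 1 / 2 * (1 / 2 *
        ∑ i, ∑ j, pd k (fun y => gi d.s₁ y i j) (mid z) * dif z i * dif z j)) ∧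
    (∀ k : Fin n, fderiv ℝ (rq (gi d.s₁)) z (0, Pi.single k 1) =
      -1 * bf (gi d.s₁ (mid z)) (Pi.single k 1) (dif z) + 1 / 2 * (1 / 2 *
        ∑ i, ∑ j, pd k (fun y => gi d.s₁ y i j) (mid z) * dif z i * dif z j)) := by
  have T := h.tr.inv h.R0 h.ε1 h.ε2
  have hd : ∀ i j, DifferentiableAt ℝ (fun x => gi d.s₁ x i j) (mid z) := fun i j =>
    (T.sm i j).contDiffAt.differentiableAt (by simp)
  have e : ∀ (k : Fin n) (a : VV n), mid a = (1 / 2 : ℝ) • (Pi.single k 1 : V n) →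
      bf (dg (mid a) (gi d.s₁) (mid z)) (dif z) (dif z) = 1 / 2 *
        ∑ i, ∑ j, pd k (fun y => gi d.s₁ y i j) (mid z) * dif z i * dif z j := by
    intro k a ha
    unfold bf
    rw [Finset.mul_sum]
    refine Finset.sum_congr rfl fun i _ => ?_
    rw [Finset.mul_sum]
    refine Finset.sum_congr rfl fun j _ => ?_
    have : dg (mid a) (gi d.s₁) (mid z) i j = 1 / 2 * pd k (fun y => gi d.s₁ y i j) (mid z) := by
      rw [ha]
      unfold H464.Cu.dg pd
      rw [map_smul, smul_eq_mul]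
    rw [this]
    ring
  refine ⟨(rq_d hd T.sy 0).d, fun k => ?_, fun k => ?_⟩
  · rw [(rq_d hd T.sy (Pi.single k 1, 0)).e, dif_x, e k _ (mid_x k), one_mul]
  · rw [(rq_d hd T.sy (0, Pi.single k 1)).e, dif_y, bf_neg, e k _ (mid_y k)]
    ring

/-- **`|∇ r| ≤ 1.01`** in both slots. -/
theorem dr_le (h : Fk n ℓ κ σ e₁ q d) (hc : 5 * n ^ 3 * (cG n 12 * q.ε) ≤ σ / 1000) {z : VV n}
    (hz : z ∈ UL ℓ κ q d) :
    √(HY.sq fun k => d.sx.D k (jr d) z) ≤ 101 / 100 ∧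
    √(HY.sq fun k => d.sy.D k (jr d) z) ≤ 101 / 100 := by
  have hR := h.R0
  have hσ := h.σ0
  have hσ1 := h.σ1
  have hn : (1 : ℝ) ≤ n := by exact_mod_cast h.n1
  have r0 : 0 < r2 (gi d.s₁) z := lt_trans (by norm_num) (h.r2_400 hz)
  have j0 : 0 < jr d z := Real.sqrt_pos.2 r0
  have T := h.tr.inv h.R0 h.ε1 h.ε2
  have N := T.nr (by norm_num) univ
  set δ := cG n 12 * q.ε with hδ
  have b0 : ∀ x i j, |gi d.s₁ x i j - (1 : Matrix (Fin n) (Fin n) ℝ) i j| ≤ δ := fun x =>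
    N.b0 x (mem_univ x)
  have b1 : ∀ x k i j, |pd k (fun y => gi d.s₁ y i j) x| ≤ δ * q.R⁻¹ := fun x =>
    N.b1 x (mem_univ x)
  have δ0 : 0 ≤ δ := (abs_nonneg _).trans (b0 0 ⟨0, h.n1⟩ ⟨0, h.n1⟩)
  have hq := q_le h hz
  obtain ⟨c1, c2, c3⟩ := fd_rq h z
  have k1 : δ * n ^ 3 ≤ σ / 5000 := by linarith
  have k2 : (n : ℝ) ^ 2 ≤ n ^ 3 := pow_le_pow_right₀ hn (by norm_num)
  have k3 : (n : ℝ) ≤ n ^ 3 := le_self_pow₀ hn (by norm_num)
  have t1 : n ^ 2 * δ + n ^ 3 * (δ * q.R⁻¹) * (q.R / σ * 4) ≤ 1 / 1000 := by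
    have e1 : (n : ℝ) ^ 3 * (δ * q.R⁻¹) * (q.R / σ * 4) = 4 * (δ * n ^ 3 / σ) := by
      field_simp
    have e2 : δ * n ^ 3 / σ ≤ 1 / 5000 := by
      rw [div_le_iff₀ hσ]
      linarith
    have e3 : (n : ℝ) ^ 2 * δ ≤ δ * n ^ 3 := by
      rw [mul_comm]
      exact mul_le_mul_of_nonneg_left k2 δ0
    rw [e1]
    linarith
  have key : ∀ (V' : Fin n → ℝ), √(HY.sq V') ≤
      (1 + n ^ 2 * δ + n ^ 3 * (δ * q.R⁻¹) * (q.R / σ * 4)) * √(HY.sq (dif z)) →
      √(HY.sq ((jr d z)⁻¹ • V')) ≤ 101 / 100 := by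
    intro V' hV
    rw [en_smul, abs_of_pos (inv_pos.2 j0), inv_mul_le_iff₀ j0]
    have q0 := Real.sqrt_nonneg (HY.sq (dif z))
    have h1 : √(HY.sq V') ≤ 1001 / 1000 * √(HY.sq (dif z)) :=
      hV.trans (mul_le_mul_of_nonneg_right (by linarith) q0)
    refine h1.trans ?_
    have h2 : 999 / 1000 * HY.sq (dif z) ≤ r2 (gi d.s₁) z := by
      have h3 := (abs_le.1 (bf_one (b0 (mid z)) (dif z))).1
      have h4 : r2 (gi d.s₁) z = bf (gi d.s₁ (mid z)) (dif z) (dif z) := by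
        unfold r2 rq
        ring
      have h5 : (n : ℝ) * δ ≤ 1 / 1000 := by
        have : (n : ℝ) * δ ≤ δ * n ^ 3 := by
          rw [mul_comm]
          exact mul_le_mul_of_nonneg_left k3 δ0
        linarith
      have h6 := mul_le_mul_of_nonneg_right h5 (sq0 (dif z))
      rw [h4]
      linarith
    have h7 : (1001 / 1000 * √(HY.sq (dif z))) ^ 2 ≤ (101 / 100 * jr d z) ^ 2 := by
      rw [mul_pow, mul_pow, Real.sq_sqrt (sq0 _)]
      have : jr d z ^ 2 = r2 (gi d.s₁) z := Real.sq_sqrt r0.le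
      rw [this]
      have := sq0 (dif z)
      linarith
    have h8 : 1001 / 1000 * √(HY.sq (dif z)) ≤ 101 / 100 * jr d z :=
      (abs_le_of_sq_le_sq' h7 (by positivity)).2
    linarith
  constructor
  · have e : (fun k => d.sx.D k (jr d) z) = (jr d z)⁻¹ • fun k : Fin n =>
        1 * bf (gi d.s₁ (mid z)) (Pi.single k 1) (dif z) + 1 / 2 * (1 / 2 *
          ∑ i, ∑ j, pd k (fun y => gi d.s₁ y i j) (mid z) * dif z i * dif z j) := by
      funext k
      rw [Pi.smul_apply, smul_eq_mul, ← c2 k, ← fd_jr c1 r0]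
      show 1 * fderiv ℝ (jr d) z (Pi.single k 1, 0) = _
      rw [one_mul]
    rw [e]
    exact key _ (gr_rq b0 b1 δ0 (by positivity) (by norm_num) (mid z) (dif z) hq)
  · have e : (fun k => d.sy.D k (jr d) z) = (jr d z)⁻¹ • fun k : Fin n =>
        -1 * bf (gi d.s₁ (mid z)) (Pi.single k 1) (dif z) + 1 / 2 * (1 / 2 *
          ∑ i, ∑ j, pd k (fun y => gi d.s₁ y i j) (mid z) * dif z i * dif z j) := by
      funext k
      rw [Pi.smul_apply, smul_eq_mul, ← c3 k, ← fd_jr c1 r0]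
      show 1 * fderiv ℝ (jr d) z (0, Pi.single k 1) = _
      rw [one_mul]
    rw [e]
    exact key _ (gr_rq b0 b1 δ0 (by positivity) (by norm_num) (mid z) (dif z) hq)

end dr

end Vale.Agent.P088.R2.H269.INF
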