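import Vale.Agent.P088.R2.H269.INF.Add
import Vale.Agent.P088.R2.H269.INF.Slow
import Vale.Agent.P088.R2.H269.INF.Geo

/-!
# P088, stage 3, zone at infinity: all slot quantities of the weight in the far region

`n = N + G`, `n_x = n + Θ'(l(x))`, `n_y = n + Θ'(l(y))`, `b² = e n / R`: the sizes of the
derivatives of orders `1, 2, 3, 4` are `n, n b, n b², n b² (1 + b)`.
-/

open Set Filter
open scoped ContDiff Topology Matrix

noncomputable section

namespace Vale.Agent.P088.R2.H269.INF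

open Vale.Agent.P088.LR Vale.Agent.P088.HY Vale.Agent.P088.R2.H464.Cu
open Vale.Agent.P088.R2.H644.Sy Vale.Agent.P088.R2.H644.Ch Vale.Agent.P088.R2.H644.Ep
open Vale.Agent.P088.R2.H31.EP Vale.Agent.P088.R2.H475 Vale.Agent.P088.R2.H768.FarJ
open Vale.Agent.P088.R2.H961.GW Vale.Agent.P088.R2.H657.W

variable {n : ℕ} {σ ℓ κ e₁ : ℝ}

/-! ## The slots -/

section slots

variable {α : Type*} {q : α → Cst} {d : α → Pk n}

theorem fr0 {s : MF n} (h : ∀ i j, ContDiff ℝ ∞ (fun x => s x i j)) (sy : ∀ x i j, s x i j = s x j i) :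
    Fr0 (fun _ => 1) s (univ : Set (V n)) where
  op := isOpen_univ
  rp _ _ := one_pos
  rs := contDiffOn_const
  ss i j := (h i j).contDiffOn
  sy := sy

theorem ok_x {q : Cst} {d : Pk n} (h : Fk n ℓ κ σ e₁ q d) :
    d.sx.Ok (UL ℓ κ q d) (fun _ => 1) := by
  have := okx (fr0 h.tr.sm h.tr.sy) (fr0 h.tr'.sm h.tr'.sy) h.UF_open
    (U := UL ℓ κ q d) (fun z _ => ⟨mem_univ _, mem_univ _⟩)
  rwa [tht_one] at this

theorem ok_y {q : Cst} {d : Pk n} (h : Fk n ℓ κ σ e₁ q d) :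
    d.sy.Ok (UL ℓ κ q d) (fun _ => 1) := by
  have := oky (fr0 h.tr.sm h.tr.sy) (fr0 h.tr'.sm h.tr'.sy) h.UF_open
    (U := UL ℓ κ q d) (fun z _ => ⟨mem_univ _, mem_univ _⟩)
  rwa [tht_one] at this

theorem cm_xy {q : Cst} {d : Pk n} (h : Fk n ℓ κ σ e₁ q d) : Cm d.sx d.sy (UL ℓ κ q d) :=
  cmm (fr0 h.tr.sm h.tr.sy) (fr0 h.tr'.sm h.tr'.sy) h.UF_open
    (fun z _ => ⟨mem_univ _, mem_univ _⟩)

theorem pd_one (i : Fin n) (x : V n) : pd i (fun _ : V n => (1 : ℝ)) x = 0 := by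
  unfold pd
  simp

theorem fs_x (h : ∀ a, Fk n ℓ κ σ e₁ (q a) (d a)) :
    FS (fun a => (d a).sx) (fun i => ((Pi.single i 1, 0) : VV n)) (fun a => UL ℓ κ (q a) (d a))
      (fun a _ => (q a).R) 3 where
  one _ _ := rfl
  dir _ _ := rfl
  k0 a i z := by
    show -((n : ℝ) - 1) * pd i (fun _ => 1) z.1 = 0
    rw [pd_one, mul_zero]
  ss i j := by
    have h1 := TR.sf1 (O := fun _ => (univ : Set (V n))) (fun a => (h a).tr)
      (fun _ => isOpen_univ) (fun a => (h a).R0) (fun a => (h a).ε0) (fun a => (h a).ε1) i j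
    exact (Sf.compL (U := fun a => UL ℓ κ (q a) (d a)) (fun _ => isOpen_univ) h1
      (ContinuousLinearMap.fst ℝ (V n) (V n)) (fun _ _ _ => mem_univ _)
      (fun a _ _ => (h a).R0.le) (fun _ _ _ => zero_le_one)).mono_k (by norm_num)

theorem fs_y (h : ∀ a, Fk n ℓ κ σ e₁ (q a) (d a)) :
    FS (fun a => (d a).sy) (fun i => ((0, Pi.single i 1) : VV n)) (fun a => UL ℓ κ (q a) (d a))
      (fun a _ => (q a).R) 3 where
  one _ _ := rfl
  dir _ _ := rfl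
  k0 a i z := by
    show -((n : ℝ) - 1) * pd i (fun _ => 1) z.2 = 0
    rw [pd_one, mul_zero]
  ss i j := by
    have h1 := TR.sf1 (O := fun _ => (univ : Set (V n))) (fun a => (h a).tr')
      (fun _ => isOpen_univ) (fun a => (h a).R0) (fun a => (h a).ε0) (fun a => (h a).ε1) i j
    exact (Sf.compL (U := fun a => UL ℓ κ (q a) (d a)) (fun _ => isOpen_univ) h1
      (ContinuousLinearMap.snd ℝ (V n) (V n)) (fun _ _ _ => mem_univ _)
      (fun a _ _ => (h a).R0.le) (fun _ _ _ => zero_le_one)).mono_k (by norm_num)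

end slots

/-! ## The weight -/

/-- `f = Φ(u) + Ψ(φ, r)`. -/
def f0 (q : Cst) (d : Pk n) (z : VV n) : ℝ := d.Φ (uf d.l z) + q.D 0 0 (jφ q d z, jr d z)

/-- `Θ(l(x))`, `Θ(l(y))`. -/
def tx (d : Pk n) (z : VV n) : ℝ := d.Θ (d.l z.1)
def ty (d : Pk n) (z : VV n) : ℝ := d.Θ (d.l z.2)

/-- The sizes of the gradient. -/
def nn (q : Cst) (d : Pk n) (z : VV n) : ℝ := deriv d.Φ (uf d.l z) + q.D 1 0 (jφ q d z, jr d z)
def nx (q : Cst) (d : Pk n) (z : VV n) : ℝ := nn q d z + deriv d.Θ (d.l z.1)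
def ny (q : Cst) (d : Pk n) (z : VV n) : ℝ := nn q d z + deriv d.Θ (d.l z.2)

/-- `b`. -/
def bb (q : Cst) (e m : ℝ) : ℝ := √(e * m / q.R)

/-- **The weight without top part and retraction in the far region.** -/
theorem W0_eq {q : Cst} {d : Pk n} (h : Fk n ℓ κ σ e₁ q d) {z : VV n} (hz : z ∈ UL ℓ κ q d) :
    WW (d.F q) d.l (gi d.s₁) z = f0 q d z := by
  have hr := h.r2_400 hz
  have hr0 : 0 < r2 (gi d.s₁) z := by linarith
  have hu : uu (d.F q) d.l (gi d.s₁) z = uf d.l z := by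
    have : d.χ (r2 (gi d.s₁) z) = 0 := h.pk.χ0 _ (by linarith)
    show d.l z.1 + d.l z.2 + 2 * (d.χ (r2 (gi d.s₁) z) * d.μc q (d.l (mid z))) = _
    rw [this, zero_mul, mul_zero, add_zero]
    rfl
  unfold WW
  rw [hu, st_out h.pk.ok hr0]
  show d.Φ (uf d.l z) + 1 * q.D 0 0 (uf d.l z + Real.log (prS q.e₁ (r2 (gi d.s₁) z)),
    √(r2 (gi d.s₁) z)) = _
  rw [one_mul]
  rfl

/-- **The weight in the far region.** -/
theorem W_eq {q : Cst} {d : Pk n} (h : Fk n 3 κ σ e₁ q d) {z : VV n} (hz : z ∈ UF κ q d) :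
    d.W q z = f0 q d z + tx d z + ty d z := by
  have px : d.P z.1 = z.1 := h.pk.ret.id _ hz.1.le
  have py : d.P z.2 = z.2 := h.pk.ret.id _ hz.2.1.le
  show WW (d.F q) d.l (gi d.s₁) (d.P z.1, d.P z.2) + (d.Θ (d.l z.1) + d.Θ (d.l z.2)) = _
  rw [px, py]
  have e : ((z.1, z.2) : VV n) = z := rfl
  rw [e, W0_eq h hz, ← add_assoc]
  rfl

/-- **The conditions of the far region**: `e` is the smallness of the curvature of `W` relative to
its slope; `C₃` bounds the higher derivatives of the slow exponential. -/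
structure FC0 (n : ℕ) (ℓ κ σ e₁ C₃ : ℝ) (q : Cst) (d : Pk n) (e : ℝ) : Prop
    extends Fk n ℓ κ σ e₁ q d where
  ep : 0 < e
  el : e ≤ 1
  /-- `c'` is small -/
  cκ : 8 * q.c' ≤ e * κ
  /-- `R` is large -/
  Re : 64 ≤ κ ^ 2 * e * q.R
  /-- the pure derivatives of the slow exponential -/
  d3 : ∀ m, 3 ≤ m → m ≤ 4 → ∀ z : ℝ × ℝ, 0 < z.2 →
    |q.D m 0 z| ≤ C₃ * (q.D 2 0 z ^ 2 / q.D 1 0 z)
  /-- the slope -/
  sn : ∀ z ∈ UL ℓ κ q d, q.M₀ ≤ deriv d.Φ (uf d.l z)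
  bP : ∀ z ∈ UL ℓ κ q d, ∀ j, 1 ≤ j → j ≤ 3 →
    |iteratedDeriv (j + 1) d.Φ (uf d.l z)| ≤ sz (nn q d z) (bb q e (nn q d z)) j

/-- The conditions with the top part. -/
structure FC (n : ℕ) (κ σ e₁ C₃ : ℝ) (q : Cst) (d : Pk n) (e : ℝ) : Prop
    extends FC0 n 3 κ σ e₁ C₃ q d e where
  sΘ : ∀ t, 0 ≤ deriv d.Θ t
  /-- the top part -/
  bX : ∀ z ∈ UF κ q d, ∀ j, 1 ≤ j → j ≤ 3 →
    |iteratedDeriv (j + 1) d.Θ (d.l z.1)| ≤ sz (nx q d z) (bb q e (nx q d z)) j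
  bY : ∀ z ∈ UF κ q d, ∀ j, 1 ≤ j → j ≤ 3 →
    |iteratedDeriv (j + 1) d.Θ (d.l z.2)| ≤ sz (ny q d z) (bb q e (ny q d z)) j

namespace FC0

variable {C₃ e : ℝ} {q : Cst} {d : Pk n}

theorem G0 (h : FC0 n ℓ κ σ e₁ C₃ q d e) {z : VV n} (hz : z ∈ UL ℓ κ q d) :
    0 < q.D 1 0 (jφ q d z, jr d z) :=
  h.pk.sl.G_pos _ (Real.sqrt_pos.2 (lt_trans (by norm_num) (h.r2_400 hz)))

theorem n_ge (h : FC0 n ℓ κ σ e₁ C₃ q d e) {z : VV n} (hz : z ∈ UL ℓ κ q d) : 1 ≤ nn q d z := by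
  have h1 := h.sn z hz
  have h2 := h.G0 hz
  have h3 := h.M1
  unfold nn
  linarith

theorem bb_sq (h : FC0 n ℓ κ σ e₁ C₃ q d e) {m : ℝ} (hm : 0 ≤ m) :
    bb q e m ^ 2 = e * m / q.R :=
  Real.sq_sqrt (div_nonneg (mul_nonneg h.ep.le hm) h.R0.le)

/-- `8 / (κ R) ≤ b`. -/
theorem bb_ge (h : FC0 n ℓ κ σ e₁ C₃ q d e) {m : ℝ} (hm : 1 ≤ m) :
    8 / (κ * q.R) ≤ bb q e m := by
  have hR := h.R0
  have hκ := h.κ0
  unfold bb
  rw [Real.le_sqrt' (by positivity), div_pow, div_le_div_iff₀ (by positivity) hR]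
  have h1 : 64 * q.R ≤ (κ ^ 2 * e * q.R) * q.R := mul_le_mul_of_nonneg_right h.Re hR.le
  have h2 : (κ ^ 2 * e * q.R) * q.R * 1 ≤ (κ ^ 2 * e * q.R) * q.R * m := by
    have := h.ep
    gcongr
  nlinarith

theorem bb_pos (h : FC0 n ℓ κ σ e₁ C₃ q d e) {m : ℝ} (hm : 1 ≤ m) : 0 < bb q e m := by
  have hR := h.R0
  have hκ := h.κ0
  exact lt_of_lt_of_le (by positivity) (h.bb_ge hm)

theorem bb_mono (h : FC0 n ℓ κ σ e₁ C₃ q d e) {m m' : ℝ} (hm : m ≤ m') :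
    bb q e m ≤ bb q e m' := by
  have hR := h.R0
  have he := h.ep
  unfold bb
  exact Real.sqrt_le_sqrt (by gcongr)

end FC0

namespace FC

variable {C₃ e : ℝ} {q : Cst} {d : Pk n}

theorem nx_ge (h : FC n κ σ e₁ C₃ q d e) (z : VV n) : nn q d z ≤ nx q d z := by
  have := h.sΘ (d.l z.1)
  unfold nx
  linarith

theorem ny_ge (h : FC n κ σ e₁ C₃ q d e) (z : VV n) : nn q d z ≤ ny q d z := by
  have := h.sΘ (d.l z.2)
  unfold ny
  linarith

end FC

theorem sz_mono {m m' b b' : ℝ} (hm : 0 ≤ m) (hb : 0 ≤ b) (h1 : m ≤ m') (h2 : b ≤ b') (j : ℕ) :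
    sz m b j ≤ sz m' b' j := by
  have hm' := hm.trans h1
  have hb' := hb.trans h2
  unfold sz
  gcongr

section fam

variable {α : Type*} {C₃ : ℝ} {q : α → Cst} {d : α → Pk n} {e : α → ℝ}

/-- The grading. -/
theorem gd_of (h : ∀ a, FC0 n ℓ κ σ e₁ C₃ (q a) (d a) (e a)) {m : α → VV n → ℝ}
    (hm : ∀ a, ∀ z ∈ UL ℓ κ (q a) (d a), 1 ≤ m a z) :
    Gd (fun a => UL ℓ κ (q a) (d a)) (fun a _ => (q a).R)
      (fun j a z => sz (m a z) (bb (q a) (e a) (m a z)) j) where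
  ρ0 a _ _ := (h a).R0
  γ0 j a z hz := sz_nn (zero_le_one.trans (hm a z hz)) ((h a).bb_pos (hm a z hz)).le j
  gr j := by
    refine ⟨1, fun a z hz => ?_⟩
    have hb := (h a).bb_pos (hm a z hz)
    have h1 := (h a).bb_ge (hm a z hz)
    have hm0 : 0 ≤ m a z := zero_le_one.trans (hm a z hz)
    have hR := (h a).R0
    have h2 : ((q a).R)⁻¹ ≤ bb (q a) (e a) (m a z) := by
      refine le_trans ?_ h1
      have hκ := (h a).κ0
      have hκ1 := (h a).κ1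
      rw [inv_eq_one_div, div_le_div_iff₀ hR (by positivity)]
      nlinarith
    rw [one_mul]
    set b := bb (q a) (e a) (m a z)
    unfold sz
    rcases j with _ | _ | j
    · simp only [Nat.zero_min, pow_zero, mul_one]
      have : m a z * ((q a).R)⁻¹ ≤ m a z * b := mul_le_mul_of_nonneg_left h2 hm0
      simpa using this
    · have : m a z * b * ((q a).R)⁻¹ ≤ m a z * b * b := mul_le_mul_of_nonneg_left h2 (by positivity)
      norm_num
      calc _ ≤ m a z * b * b := this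
        _ = _ := by ring
    · have e1 : min (j + 1 + 1) 2 = 2 := by omega
      have e2 : min (j + 1 + 1 + 1) 2 = 2 := by omega
      have e3 : j + 1 + 1 - 2 = j := by omega
      have e4 : j + 1 + 1 + 1 - 2 = j + 1 := by omega
      rw [e1, e2, e3, e4]
      calc m a z * b ^ 2 * (1 + b) ^ j * ((q a).R)⁻¹ ≤ m a z * b ^ 2 * (1 + b) ^ j * (1 + b) :=
            mul_le_mul_of_nonneg_left (by linarith) (by positivity)
        _ = _ := by rw [pow_succ]; ring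

theorem pd_of (h : ∀ a, FC0 n ℓ κ σ e₁ C₃ (q a) (d a) (e a)) : Pd fun a => (q a).D where
  sm a i j := (h a).pk.sl.sm i j
  hd a i j z hz := (h a).pk.sl.hd i j z hz

/-- **The far part `f`.** -/
theorem sg_f0 (κe : 0 < e₁) (h : ∀ a, FC0 n ℓ κ σ e₁ C₃ (q a) (d a) (e a)) (hC : 0 ≤ C₃) :
    Sg (fun a => UL ℓ κ (q a) (d a))
      (fun j a z => sz (nn (q a) (d a) z) (bb (q a) (e a) (nn (q a) (d a) z)) j) 3
      (fun a => fderiv ℝ (f0 (q a) (d a))) := by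
  obtain ⟨p1, p2, p3, p4, p5, p6⟩ := sym κe fun a => (h a).toFk
  have hn : ∀ a, ∀ z ∈ UL ℓ κ (q a) (d a), 1 ≤ nn (q a) (d a) z := fun a z hz => (h a).n_ge hz
  have r0 : ∀ a, ∀ z ∈ UL ℓ κ (q a) (d a), 0 < jr (d a) z := fun a z hz =>
    (fj κe fun a => (h a).toFk).r0 hz
  refine sg_W (pd_of h) (fun a => (h a).UF_open) (gd_of h hn) p1 p2 p3
    (fun a => (h a).pk.top.sm) r0 p4 p5 p6 ?_ ?_
  · intro j hj
    refine ⟨1, fun a z hz => ?_⟩
    rw [one_mul]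
    rcases j with _ | j
    · rw [zero_add, iteratedDeriv_one, sz0]
      have h1 := (h a).sn z hz
      have h2 := (h a).M1
      have h3 := (h a).G0 hz
      rw [abs_of_nonneg (by linarith)]
      unfold nn
      linarith
    · exact (h a).bP z hz (j + 1) (by omega) hj
  · intro i j h1 h2
    refine ⟨2 + 1 + C₃ + |slB i j| * 1, fun a z hz => ?_⟩
    have hz0 := r0 a z hz
    have hr : κ * (q a).R / 8 ≤ jr (d a) z := by
      unfold jr
      rw [Real.le_sqrt' (by have := (h a).R0; have := (h a).κ0; positivity)]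
      exact ((h a).r2_ge hz).le
    have hb := (h a).bb_ge (hn a z hz)
    have hb0 := (h a).bb_pos (hn a z hz)
    have hn0 : 0 ≤ nn (q a) (d a) z := zero_le_one.trans (hn a z hz)
    have hR := (h a).R0
    have hκ := (h a).κ0
    refine slow_sz (z := (jφ (q a) (d a) z, jr (d a) z)) (h a).pk.sl (h a).s1
      (by have := (h a).M1; linarith) hz0 (n := nn (q a) (d a) z) ?_ hb0 zero_le_one ?_ (h a).c0
      ?_ hC (fun m hm hm' => (h a).d3 m hm hm' _ hz0) i j h1 h2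
    · unfold nn
      linarith [(h a).sn z hz]
    · rw [(h a).bb_sq hn0]
      have k1 : 8 * (q a).c' * nn (q a) (d a) z ≤ e a * κ * nn (q a) (d a) z :=
        mul_le_mul_of_nonneg_right (h a).cκ hn0
      have k2 : e a * nn (q a) (d a) z / (q a).R * (κ * (q a).R / 8) ≤
          e a * nn (q a) (d a) z / (q a).R * jr (d a) z := by
        have := (h a).ep
        gcongr
      have k3 : e a * nn (q a) (d a) z / (q a).R * (κ * (q a).R / 8) =
          e a * κ * nn (q a) (d a) z / 8 := by field_simp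
      show (q a).c' * nn (q a) (d a) z ≤ e a * nn (q a) (d a) z / (q a).R * jr (d a) z
      linarith
    · rw [one_mul]
      calc (1 : ℝ) = 8 / (κ * (q a).R) * (κ * (q a).R / 8) := by field_simp
        _ ≤ bb (q a) (e a) (nn (q a) (d a) z) * jr (d a) z :=
            mul_le_mul hb hr (by positivity) hb0.le

/-- Smoothness of `f`. -/
theorem sm_f0 (κe : 0 < e₁) (h : ∀ a, FC0 n ℓ κ σ e₁ C₃ (q a) (d a) (e a)) (a : α) :
    ContDiffOn ℝ ∞ (f0 (q a) (d a)) (UL ℓ κ (q a) (d a)) := by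
  obtain ⟨p1, p2, p3, p4, p5, p6⟩ := sym κe fun a => (h a).toFk
  exact ((h a).pk.top.sm.comp_contDiffOn (p1 a)).add ((pd_of h).smc p2 p3
    (fun a z hz => (fj κe fun a => (h a).toFk).r0 hz) a 0 0)

/-- **The weight without top part and retraction: derivatives and slot quantities**, uniformly over
families. -/
theorem far0_fam (κe : 0 < e₁) (h : ∀ a, FC0 n ℓ κ σ e₁ C₃ (q a) (d a) (e a)) (hC : 0 ≤ C₃) :
    ∃ C, 0 ≤ C ∧ ∀ a, ∀ z ∈ UL ℓ κ (q a) (d a),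
      (∀ j ≤ 3, ‖iteratedFDeriv ℝ j
        (fderiv ℝ (WW ((d a).F (q a)) (d a).l (gi (d a).s₁))) z‖ ≤
        C * sz (nn (q a) (d a) z) (bb (q a) (e a) (nn (q a) (d a) z)) j) ∧
      Sb4 (d a).sx (d a).sy (WW ((d a).F (q a)) (d a).l (gi (d a).s₁)) C
        (sz (nn (q a) (d a) z) (bb (q a) (e a) (nn (q a) (d a) z))) z := by
  have hn : ∀ a, ∀ z ∈ UL ℓ κ (q a) (d a), 1 ≤ nn (q a) (d a) z := fun a z hz => (h a).n_ge hz
  have e0 : ∀ a, ∀ z ∈ UL ℓ κ (q a) (d a),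
      WW ((d a).F (q a)) (d a).l (gi (d a).s₁) z = f0 (q a) (d a) z :=
    fun a z hz => W0_eq (h a).toFk hz
  have s1 : ∀ a, ContDiffOn ℝ ∞ (WW ((d a).F (q a)) (d a).l (gi (d a).s₁))
      (UL ℓ κ (q a) (d a)) := fun a => (sm_f0 κe h a).congr fun z hz => e0 a z hz
  have s2 : Sg (fun a => UL ℓ κ (q a) (d a))
      (fun j a z => sz (nn (q a) (d a) z) (bb (q a) (e a) (nn (q a) (d a) z)) j) 3
      (fun a => fderiv ℝ (WW ((d a).F (q a)) (d a).l (gi (d a).s₁))) := by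
    refine (sg_f0 κe h hC).congr (fun a => (h a).UF_open) fun a z hz => ?_
    exact Filter.EventuallyEq.fderiv_eq (Filter.eventuallyEq_of_mem
      ((h a).UF_open.mem_nhds hz) fun y hy => e0 a y hy)
  obtain ⟨C, C0, hC'⟩ := sb4 (fs_x fun a => (h a).toFk) (fs_y fun a => (h a).toFk)
    (fun a => ok_x (h a).toFk) (fun a => ok_y (h a).toFk) (gd_of h hn) s1 s2
  choose B hB using s2.bd
  have g0 : ∀ a, ∀ z ∈ UL ℓ κ (q a) (d a), ∀ j,
      0 ≤ sz (nn (q a) (d a) z) (bb (q a) (e a) (nn (q a) (d a) z)) j := fun a z hz j =>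
    sz_nn (zero_le_one.trans (hn a z hz)) ((h a).bb_pos (hn a z hz)).le j
  refine ⟨C + ∑ j : Fin 4, |B j (by omega)|, by positivity, fun a z hz => ⟨fun j hj => ?_, ?_⟩⟩
  · refine (hB j hj a z hz).trans (mul_le_mul_of_nonneg_right ?_ (g0 a z hz j))
    have := Finset.single_le_sum (f := fun j : Fin 4 => |B j (by omega)|)
      (fun _ _ => abs_nonneg _) (Finset.mem_univ (⟨j, by omega⟩ : Fin 4))
    have h2 := le_abs_self (B j hj)
    simp only at this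
    linarith
  · exact (hC' a z hz).mono (g0 a z hz) (by
      have : 0 ≤ ∑ j : Fin 4, |B j (by omega)| := Finset.sum_nonneg fun _ _ => abs_nonneg _
      linarith)

/-- `D l(x)`, `D l(y)`. -/
theorem s_lx (h : ∀ a, Fk n ℓ κ σ e₁ (q a) (d a)) :
    Sf (fun a => UL ℓ κ (q a) (d a)) (fun a _ => (q a).R) (fun _ _ => 1) 3
      (fun a => fderiv ℝ fun z : VV n => (d a).l z.1) := by
  have hl := lg h
  have h1 := (Sf.compL (U := fun a => UL ℓ κ (q a) (d a)) hl.oO hl.dl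
    (ContinuousLinearMap.fst ℝ (V n) (V n)) hl.hx
    (fun a _ _ => (hl.R0 a).le) (fun _ _ _ => zero_le_one)).clm hl.oU
    ((ContinuousLinearMap.compL ℝ (VV n) (V n) ℝ).flip (ContinuousLinearMap.fst ℝ (V n) (V n)))
  refine h1.congr hl.oU fun a z hz => ?_
  have d1 := (df_of (hl.oO a) (hl.sl a) (hl.hx a z hz)).hasFDerivAt
  have f1 : HasFDerivAt (fun z : VV n => (d a).l z.1)
    ((fderiv ℝ (d a).l z.1).comp (ContinuousLinearMap.fst ℝ (V n) (V n))) z :=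
    HasFDerivAt.comp z d1 hasFDerivAt_fst
  exact f1.fderiv

theorem s_ly (h : ∀ a, Fk n ℓ κ σ e₁ (q a) (d a)) :
    Sf (fun a => UL ℓ κ (q a) (d a)) (fun a _ => (q a).R) (fun _ _ => 1) 3
      (fun a => fderiv ℝ fun z : VV n => (d a).l z.2) := by
  have hl := lg h
  have h1 := (Sf.compL (U := fun a => UL ℓ κ (q a) (d a)) hl.oO hl.dl
    (ContinuousLinearMap.snd ℝ (V n) (V n)) hl.hy
    (fun a _ _ => (hl.R0 a).le) (fun _ _ _ => zero_le_one)).clm hl.oU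
    ((ContinuousLinearMap.compL ℝ (VV n) (V n) ℝ).flip (ContinuousLinearMap.snd ℝ (V n) (V n)))
  refine h1.congr hl.oU fun a z hz => ?_
  have d1 := (df_of (hl.oO a) (hl.sl a) (hl.hy a z hz)).hasFDerivAt
  have f1 : HasFDerivAt (fun z : VV n => (d a).l z.2)
    ((fderiv ℝ (d a).l z.2).comp (ContinuousLinearMap.snd ℝ (V n) (V n))) z :=
    HasFDerivAt.comp z d1 hasFDerivAt_snd
  exact f1.fderiv

/-- The top parts. -/
theorem sg_tx (h : ∀ a, FC n κ σ e₁ C₃ (q a) (d a) (e a)) :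
    Sg (fun a => UF κ (q a) (d a))
      (fun j a z => sz (nx (q a) (d a) z) (bb (q a) (e a) (nx (q a) (d a) z)) j) 3
      (fun a => fderiv ℝ (tx (d a))) := by
  have hn : ∀ a, ∀ z ∈ UF κ (q a) (d a), 1 ≤ nx (q a) (d a) z := fun a z hz =>
    ((h a).n_ge hz).trans ((h a).nx_ge z)
  refine sg_Phi (fun a => (h a).UF_open) (gd_of (fun a => (h a).toFC0) hn)
    (fun a => ((h a).pk.lev.sm.comp contDiff_fst).contDiffOn) (fun a => (h a).pk.Θs)
    (s_lx fun a => (h a).toFC0.toFk) fun j hj => ⟨1, fun a z hz => ?_⟩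
  rw [one_mul]
  rcases j with _ | j
  · rw [zero_add, iteratedDeriv_one, sz0, abs_of_nonneg ((h a).sΘ _)]
    have := (h a).n_ge hz
    unfold nx
    linarith
  · exact (h a).bX z hz (j + 1) (by omega) hj

theorem sg_ty (h : ∀ a, FC n κ σ e₁ C₃ (q a) (d a) (e a)) :
    Sg (fun a => UF κ (q a) (d a))
      (fun j a z => sz (ny (q a) (d a) z) (bb (q a) (e a) (ny (q a) (d a) z)) j) 3
      (fun a => fderiv ℝ (ty (d a))) := by
  have hn : ∀ a, ∀ z ∈ UF κ (q a) (d a), 1 ≤ ny (q a) (d a) z := fun a z hz =>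
    ((h a).n_ge hz).trans ((h a).ny_ge z)
  refine sg_Phi (fun a => (h a).UF_open) (gd_of (fun a => (h a).toFC0) hn)
    (fun a => ((h a).pk.lev.sm.comp contDiff_snd).contDiffOn) (fun a => (h a).pk.Θs)
    (s_ly fun a => (h a).toFC0.toFk) fun j hj => ⟨1, fun a z hz => ?_⟩
  rw [one_mul]
  rcases j with _ | j
  · rw [zero_add, iteratedDeriv_one, sz0, abs_of_nonneg ((h a).sΘ _)]
    have := (h a).n_ge hz
    unfold ny
    linarith
  · exact (h a).bY z hz (j + 1) (by omega) hj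

/-- The functions of one point are not seen by the other slot. -/
theorem Dy_tx {q : Cst} {d : Pk n} (h : Fk n 3 κ σ e₁ q d) (z : VV n) (k : Fin n) :
    d.sy.D k (tx d) z = 0 :=
  Dy_fst ((h.pk.Θs.comp h.pk.lev.sm).differentiable (by simp) z.1) k

theorem Dx_ty {q : Cst} {d : Pk n} (h : Fk n 3 κ σ e₁ q d) (z : VV n) (k : Fin n) :
    d.sx.D k (ty d) z = 0 :=
  Dx_snd ((h.pk.Θs.comp h.pk.lev.sm).differentiable (by simp) z.2) k

/-- **All slot quantities of the weight in the far region**, uniformly over families. -/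
theorem far_fam (κe : 0 < e₁) (h : ∀ a, FC n κ σ e₁ C₃ (q a) (d a) (e a)) (hC : 0 ≤ C₃) :
    ∃ C, 0 ≤ C ∧ ∀ a, ∀ z ∈ UF κ (q a) (d a), Sb5 (d a).sx (d a).sy ((d a).W (q a)) C
      (sz (nn (q a) (d a) z) (bb (q a) (e a) (nn (q a) (d a) z)))
      (sz (nx (q a) (d a) z) (bb (q a) (e a) (nx (q a) (d a) z)))
      (sz (ny (q a) (d a) z) (bb (q a) (e a) (ny (q a) (d a) z))) z := by
  have hn : ∀ a, ∀ z ∈ UF κ (q a) (d a), 1 ≤ nn (q a) (d a) z := fun a z hz => (h a).n_ge hz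
  have hx : ∀ a, ∀ z ∈ UF κ (q a) (d a), 1 ≤ nx (q a) (d a) z := fun a z hz =>
    ((h a).n_ge hz).trans ((h a).nx_ge z)
  have hy : ∀ a, ∀ z ∈ UF κ (q a) (d a), 1 ≤ ny (q a) (d a) z := fun a z hz =>
    ((h a).n_ge hz).trans ((h a).ny_ge z)
  obtain ⟨C, C0, hC'⟩ := sb5 (f := fun a => f0 (q a) (d a)) (p := fun a => tx (d a))
    (q := fun a => ty (d a))
    (γx := fun j a z => sz (nx (q a) (d a) z) (bb (q a) (e a) (nx (q a) (d a) z)) j)
    (γy := fun j a z => sz (ny (q a) (d a) z) (bb (q a) (e a) (ny (q a) (d a) z)) j)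
    (fs_x fun a => (h a).toFC0.toFk) (fs_y fun a => (h a).toFC0.toFk)
    (fun a => ok_x (h a).toFC0.toFk) (fun a => ok_y (h a).toFC0.toFk) (fun a => cm_xy (h a).toFC0.toFk)
    (gd_of (fun a => (h a).toFC0) hn) (gd_of (fun a => (h a).toFC0) hx) (gd_of (fun a => (h a).toFC0) hy)
    (fun a => sm_f0 κe (fun a => (h a).toFC0) a)
    (fun a => ((h a).pk.Θs.comp ((h a).pk.lev.sm.comp contDiff_fst)).contDiffOn)
    (fun a => ((h a).pk.Θs.comp ((h a).pk.lev.sm.comp contDiff_snd)).contDiffOn)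
    (fun a z _ k => Dy_tx (h a).toFC0.toFk z k) (fun a z _ k => Dx_ty (h a).toFC0.toFk z k)
    (fun j _ => ⟨1, fun a z hz => by
      rw [one_mul]
      exact sz_mono (zero_le_one.trans (hn a z hz)) ((h a).bb_pos (hn a z hz)).le
        ((h a).nx_ge z) ((h a).bb_mono ((h a).nx_ge z)) j⟩)
    (fun j _ => ⟨1, fun a z hz => by
      rw [one_mul]
      exact sz_mono (zero_le_one.trans (hn a z hz)) ((h a).bb_pos (hn a z hz)).le
        ((h a).ny_ge z) ((h a).bb_mono ((h a).ny_ge z)) j⟩)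
    (sg_f0 κe (fun a => (h a).toFC0) hC) (sg_tx h) (sg_ty h)
  refine ⟨C, C0, fun a z hz => ?_⟩
  exact (hC' a z hz).congr (h a).UF_open (fun z hz => W_eq (h a).toFC0.toFk hz) hz

end fam

/-- **All slot quantities of the weight in the far region.** The constant depends only on `n`,
`κ₁`, `σ`, `e₁` and the constant `C₃` of the slow exponential. -/
theorem far_bd (n : ℕ) (κ σ e₁ C₃ : ℝ) : ∃ C, 0 ≤ C ∧ ∀ (q : Cst) (d : Pk n) (e : ℝ), 0 ≤ C₃ →
    FC n κ σ e₁ C₃ q d e → ∀ z ∈ UF κ q d, Sb5 d.sx d.sy (d.W q) C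
      (sz (nn q d z) (bb q e (nn q d z))) (sz (nx q d z) (bb q e (nx q d z)))
      (sz (ny q d z) (bb q e (ny q d z))) z := by
  by_cases h : 0 < e₁ ∧ 0 ≤ C₃
  · obtain ⟨C, C0, hC⟩ := far_fam (α := {p : Cst × Pk n × ℝ // FC n κ σ e₁ C₃ p.1 p.2.1 p.2.2})
      (q := fun a => a.1.1) (d := fun a => a.1.2.1) (e := fun a => a.1.2.2) h.1
      (fun a => a.2) h.2
    exact ⟨C, C0, fun q d e _ hF z hz => hC ⟨(q, d, e), hF⟩ z hz⟩
  · refine ⟨0, le_rfl, fun q d e h1 hF z hz => absurd ⟨hF.e0, h1⟩ h⟩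

/-- **The weight without top part and retraction: derivatives and slot quantities** below the
level `l₀ + ℓ R`. The constant depends only on `n`, `ℓ`, `κ₁`, `σ`, `e₁` and `C₃`. -/
theorem far0_bd (n : ℕ) (ℓ κ σ e₁ C₃ : ℝ) : ∃ C, 0 ≤ C ∧ ∀ (q : Cst) (d : Pk n) (e : ℝ), 0 ≤ C₃ →
    FC0 n ℓ κ σ e₁ C₃ q d e → ∀ z ∈ UL ℓ κ q d,
      (∀ j ≤ 3, ‖iteratedFDeriv ℝ j (fderiv ℝ (WW (d.F q) d.l (gi d.s₁))) z‖ ≤
        C * sz (nn q d z) (bb q e (nn q d z)) j) ∧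
      Sb4 d.sx d.sy (WW (d.F q) d.l (gi d.s₁)) C (sz (nn q d z) (bb q e (nn q d z))) z := by
  by_cases h : 0 < e₁ ∧ 0 ≤ C₃
  · obtain ⟨C, C0, hC⟩ := far0_fam (α := {p : Cst × Pk n × ℝ // FC0 n ℓ κ σ e₁ C₃ p.1 p.2.1 p.2.2})
      (q := fun a => a.1.1) (d := fun a => a.1.2.1) (e := fun a => a.1.2.2) h.1
      (fun a => a.2) h.2
    exact ⟨C, C0, fun q d e _ hF z hz => hC ⟨(q, d, e), hF⟩ z hz⟩
  · refine ⟨0, le_rfl, fun q d e h1 hF z hz => absurd ⟨hF.e0, h1⟩ h⟩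

end Vale.Agent.P088.R2.H269.INF
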