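import Vale.Agent.P088.R2.H269.INF.RowG

/-!
# P088, stage 3, leaf iF: the terms of order three and four
-/

open Set Filter
open scoped ContDiff Topology Matrix

noncomputable section

namespace Vale.Agent.P088.R2.H269.INF

open Vale.Agent.P088.LR Vale.Agent.P088.HY Vale.Agent.P088.R2.H464.Cu
open Vale.Agent.P088.R2.H31.EP Vale.Agent.P088.R2.H475 Vale.Agent.P088.R2.H768.FarJ
open Vale.Agent.P088.R2.H961.GW Vale.Agent.P088.R2.H657.W Vale.Agent.P088.R2.H303.F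
open Vale.Agent.P088.R2.H644.Ch Vale.Agent.P088.R2.H230.W Vale.Agent.P088.R2.H404.INF
open Vale.Agent.P088.R2.H644 Vale.Agent.P088.R2.H747.SW

/-! ## Numbers -/

section num

variable {C η c s R e X Y F b g k m P : ℝ}

/-- The size of the gain times the margin. -/
theorem P_ge (hc : 0 < c) (hs : 0 < s) (hR : 0 < R) (hY : 0 ≤ Y) (hYX : Y ≤ X)
    (hF : 1 / 100 * X ^ 2 ≤ F) : c * s * Y ^ 3 / (100 * R) ≤ c * (s / R) * X * F := by
  have hX : 0 ≤ X := hY.trans hYX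
  have h1 : Y ^ 3 ≤ X ^ 3 := pow_le_pow_left₀ hY hYX 3
  have h2 : c * (s / R) * X * (1 / 100 * X ^ 2) ≤ c * (s / R) * X * F :=
    mul_le_mul_of_nonneg_left hF (by positivity)
  have h3 : c * s * Y ^ 3 / (100 * R) ≤ c * s * X ^ 3 / (100 * R) := by gcongr
  have h4 : c * s * X ^ 3 / (100 * R) = c * (s / R) * X * (1 / 100 * X ^ 2) := by
    field_simp
  linarith

theorem num1 (hR : 0 < R) (hX : 0 ≤ X) (hb : b ^ 2 = η * X / R)
    (hA : 200 * C * η ≤ e * (c * s)) (h0 : 0 ≤ C * η) :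
    C * (X * b) ^ 2 ≤ e * (c * s * X ^ 3 / (100 * R)) := by
  have e1 : C * (X * b) ^ 2 = (C * η) * (X ^ 3 / R) := by
    rw [mul_pow, hb]
    field_simp
  have e2 : e * (c * s * X ^ 3 / (100 * R)) = (e * (c * s)) / 100 * (X ^ 3 / R) := by
    field_simp
  rw [e1, e2]
  refine mul_le_mul_of_nonneg_right ?_ (by positivity)
  linarith

theorem b_le (hR : 1 ≤ R) (hX : 1 ≤ X) (h0 : 0 ≤ η) (h1 : η ≤ 1) (hb0 : 0 ≤ b)
    (hb : b ^ 2 = η * X / R) : b ≤ X := by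
  have h2 : η * X / R ≤ X ^ 2 := by
    rw [div_le_iff₀ (by linarith)]
    have : η * X ≤ 1 * X := mul_le_mul_of_nonneg_right h1 (by linarith)
    nlinarith
  rw [← hb] at h2
  exact (abs_le_of_sq_le_sq' h2 (by linarith)).2

theorem num3 (hR : 1 ≤ R) (hX : 1 ≤ X) (h0 : 0 ≤ η) (h1 : η ≤ 1) (hb0 : 0 ≤ b)
    (hb : b ^ 2 = η * X / R) (hA : 200 * C * η ≤ e * (c * s)) (hC : 0 ≤ C) :
    C * (X * b ^ 2 * (1 + b)) ≤ e * (c * s * X ^ 3 / (100 * R)) := by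
  have hR0 : 0 < R := by linarith
  have h2 := b_le hR hX h0 h1 hb0 hb
  have h3 : 1 + b ≤ 2 * X := by linarith
  have h4 : C * (X * b ^ 2 * (1 + b)) ≤ C * (X * b ^ 2 * (2 * X)) := by gcongr
  refine h4.trans ?_
  have e1 : C * (X * b ^ 2 * (2 * X)) = 2 * (C * η) * (X ^ 3 / R) := by
    rw [hb]
    field_simp
  have e2 : e * (c * s * X ^ 3 / (100 * R)) = (e * (c * s)) / 100 * (X ^ 3 / R) := by
    field_simp
  rw [e1, e2]
  refine mul_le_mul_of_nonneg_right ?_ (by positivity)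
  linarith

theorem num_mix {M P₁ P₂ p : ℝ} (he : 0 ≤ e) (hM : |M| ≤ k) (hk : k ≤ e * p) (hp : 0 ≤ p)
    (h1 : p ≤ P₁) (h2 : p ≤ P₂) : M ^ 2 ≤ e ^ 2 * (P₁ * P₂) := by
  have h3 : |M| ≤ e * p := hM.trans hk
  have h4 : M ^ 2 ≤ (e * p) ^ 2 := by
    rw [← sq_abs]
    exact pow_le_pow_left₀ (abs_nonneg _) h3 2
  have h5 : p * p ≤ P₁ * P₂ := mul_le_mul h1 h2 hp (hp.trans h1)
  calc M ^ 2 ≤ (e * p) ^ 2 := h4
    _ = e ^ 2 * (p * p) := by ring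
    _ ≤ _ := mul_le_mul_of_nonneg_left h5 (sq_nonneg e)

theorem num_T {N : ℝ} (he : 0 ≤ e) (hc : 0 < c) (hs : 0 < s) (hR : 0 < R) (hY : 0 ≤ Y)
    (hb : b ^ 2 = η * Y / R) (hB : 200 * N ^ 2 * C ^ 2 * η ^ 2 ≤ e * (c * s) ^ 2)
    (hm : c * (s / R) * Y ≤ m) (hP : c * s * Y ^ 3 / (100 * R) ≤ P)
    {G : ℝ} (hG : G ≤ N ^ 2 * (2 * (C * (Y * b ^ 2)) * (C * (Y * b ^ 2)))) :
    G ≤ e * (m * P) := by
  have h1 : c * (s / R) * Y * (c * s * Y ^ 3 / (100 * R)) ≤ m * P :=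
    mul_le_mul hm hP (by positivity) ((by positivity : 0 ≤ c * (s / R) * Y).trans hm)
  have h2 := mul_le_mul_of_nonneg_left h1 he
  refine hG.trans (le_trans ?_ h2)
  have e1 : N ^ 2 * (2 * (C * (Y * b ^ 2)) * (C * (Y * b ^ 2))) =
      2 * N ^ 2 * C ^ 2 * η ^ 2 * (Y ^ 4 / R ^ 2) := by
    rw [hb]
    field_simp
  have e2 : e * (c * (s / R) * Y * (c * s * Y ^ 3 / (100 * R))) =
      e * (c * s) ^ 2 / 100 * (Y ^ 4 / R ^ 2) := by
    field_simp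
  rw [e1, e2]
  refine mul_le_mul_of_nonneg_right ?_ (by positivity)
  linarith

end num

/-- **From the sizes to the errors.** -/
theorem cr_pw {n : ℕ} {E : Type*} [NormedAddCommGroup E] [NormedSpace ℝ E]
    {σ τ : Sl E (Fin n)} {W : E → ℝ} {C η R c s e m mx my : ℝ} {z : E}
    (sb : Sb5 σ τ W C (sz m √(η * m / R)) (sz mx √(η * mx / R)) (sz my √(η * my / R)) z)
    (s1 : ∀ i j, |σ.s i j z| ≤ 2) (s2 : ∀ i j, |τ.s i j z| ≤ 2)
    (hC : 0 ≤ C) (h0 : 0 ≤ η) (h1 : η ≤ 1) (hR : 1 ≤ R) (hc : 0 < c) (hs : 0 < s) (he : 0 ≤ e)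
    (m1 : 1 ≤ m) (hx : m ≤ mx) (hy : m ≤ my)
    (F₁ : 1 / 100 * mx ^ 2 ≤ σ.F W z) (F₂ : 1 / 100 * my ^ 2 ≤ τ.F W z)
    (hA : 200 * C * η ≤ e * (c * s)) (hB : 200 * (n : ℝ) ^ 2 * C ^ 2 * η ^ 2 ≤ e * (c * s) ^ 2)
    (ct : ∀ A B : Fin n → ℝ, c * (s / R) * mx * ss σ A z + c * (s / R) * my * ss τ B z ≤
      Ch.TH σ τ W z A B) :
    Cr σ τ (fun _ => 0) (fun _ => 0) W (c * (s / R) * mx) (c * (s / R) * my) e z := by
  have hR0 : 0 < R := by linarith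
  have m0 : 0 ≤ m := by linarith
  have mx1 : 1 ≤ mx := m1.trans hx
  have my1 : 1 ≤ my := m1.trans hy
  have mx0 : 0 ≤ mx := by linarith
  have my0 : 0 ≤ my := by linarith
  have bq : ∀ t, 0 ≤ t → √(η * t / R) ^ 2 = η * t / R := fun t ht =>
    Real.sq_sqrt (div_nonneg (mul_nonneg h0 ht) hR0.le)
  have hCη : 0 ≤ C * η := mul_nonneg hC h0
  have p0 : 0 ≤ c * s * m ^ 3 / (100 * R) := by positivity
  have Pm := P_ge hc hs hR0 m0 hx F₁
  have Pm' := P_ge hc hs hR0 m0 hy F₂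
  have Px := P_ge hc hs hR0 mx0 le_rfl F₁
  have Py := P_ge hc hs hR0 my0 le_rfl F₂
  have Mx : c * (s / R) * m ≤ c * (s / R) * mx := mul_le_mul_of_nonneg_left hx (by positivity)
  have My : c * (s / R) * m ≤ c * (s / R) * my := mul_le_mul_of_nonneg_left hy (by positivity)
  have Γx : ∀ {f : E → ℝ} {a : ℝ}, (∀ i, |σ.D i f z| ≤ a) →
      σ.Γ f f z ≤ (n : ℝ) ^ 2 * (2 * a * a) := fun h => by
    have := G_self (σ := σ) s1 h
    rwa [Fintype.card_fin] at this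
  have Γy : ∀ {f : E → ℝ} {a : ℝ}, (∀ i, |τ.D i f z| ≤ a) →
      τ.Γ f f z ≤ (n : ℝ) ^ 2 * (2 * a * a) := fun h => by
    have := G_self (σ := τ) s2 h
    rwa [Fintype.card_fin] at this
  have z0 : ∀ (ρ : Sl E (Fin n)), ρ.Γ W (fun _ => 0) z = 0 := fun ρ => by
    unfold Sl.Γ
    refine Finset.sum_eq_zero fun i _ => Finset.sum_eq_zero fun j _ => ?_
    rw [D_const, mul_zero]
  have P1 : 0 ≤ c * (s / R) * mx * σ.F W z := (by positivity : (0 : ℝ) ≤ _).trans Px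
  have P2 : 0 ≤ c * (s / R) * my * τ.F W z := (by positivity : (0 : ℝ) ≤ _).trans Py
  refine ⟨ct, ?_, ?_, ?_, ?_, ?_, ?_, ?_, ?_, ?_, ?_, ?_, ?_⟩
  · refine sb.g2.trans (le_trans ?_ (mul_le_mul_of_nonneg_left Px he))
    rw [sz1]
    exact num1 hR0 mx0 (bq mx mx0) hA hCη
  · refine sb.g2'.trans (le_trans ?_ (mul_le_mul_of_nonneg_left Py he))
    rw [sz1]
    exact num1 hR0 my0 (bq my my0) hA hCη
  · refine num_mix he sb.gm ?_ p0 Pm Pm'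
    rw [sz1]
    exact num1 hR0 m0 (bq m m0) hA hCη
  · have h := Γx sb.l1
    rw [sz2] at h
    exact num_T he hc hs hR0 mx0 (bq mx mx0) hB le_rfl Px h
  · have h := Γx sb.l2
    rw [sz2] at h
    exact num_T he hc hs hR0 m0 (bq m m0) hB Mx Pm' h
  · have h := Γy sb.l3
    rw [sz2] at h
    exact num_T he hc hs hR0 m0 (bq m m0) hB My Pm h
  · have h := Γy sb.l4
    rw [sz2] at h
    exact num_T he hc hs hR0 my0 (bq my my0) hB le_rfl Py h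
  · refine sb.m1.trans (le_trans ?_ (mul_le_mul_of_nonneg_left Px he))
    rw [sz3]
    exact num3 hR mx1 h0 h1 (Real.sqrt_nonneg _) (bq mx mx0) hA hC
  · refine sb.m4.trans (le_trans ?_ (mul_le_mul_of_nonneg_left Py he))
    rw [sz3]
    exact num3 hR my1 h0 h1 (Real.sqrt_nonneg _) (bq my my0) hA hC
  · refine num_mix he sb.m2 ?_ p0 Pm Pm'
    rw [sz3]
    exact num3 hR m1 h0 h1 (Real.sqrt_nonneg _) (bq m m0) hA hC
  · rw [z0 σ, abs_zero]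
    exact mul_nonneg he P1
  · rw [z0 τ, abs_zero]
    exact mul_nonneg he P2

/-- The smallness for row C. -/
def eC (n : ℕ) (c e : ℝ) (q : Cst) : ℝ := min 1 (min e 1 * c * q.σ / (200 * n * (Cf n q + 1)))

theorem eC_pos {n : ℕ} (hn : 1 ≤ n) {c e : ℝ} (hc : 0 < c) (he : 0 < e) {q : Cst}
    (hσ : 0 < q.σ) : 0 < eC n c e q ∧ eC n c e q ≤ 1 := by
  have h1 := Cf_nn n q
  have h2 : (0 : ℝ) < n := by exact_mod_cast hn
  have h3 : 0 < min e 1 := lt_min he one_pos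
  exact ⟨lt_min one_pos (by positivity), min_le_left _ _⟩

theorem eC_AB {n : ℕ} (hn : 1 ≤ n) {c e : ℝ} (hc : 0 < c) (he : 0 < e) {q : Cst}
    (hσ : 0 < q.σ) : 200 * Cf n q * eC n c e q ≤ e * (c * q.σ) ∧
      200 * (n : ℝ) ^ 2 * Cf n q ^ 2 * eC n c e q ^ 2 ≤ e * (c * q.σ) ^ 2 := by
  have h1 := Cf_nn n q
  have h2 : (1 : ℝ) ≤ n := by exact_mod_cast hn
  have h3 : 0 < min e 1 := lt_min he one_pos
  have h4 : min e 1 ≤ e := min_le_left _ _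
  have h5 : min e 1 ≤ 1 := min_le_right _ _
  have h6 := (eC_pos hn hc he hσ).1
  have h7 : eC n c e q ≤ min e 1 * c * q.σ / (200 * n * (Cf n q + 1)) := min_le_right _ _
  set x := eC n c e q
  set C := Cf n q
  rw [le_div_iff₀ (by positivity)] at h7
  have h8 : 200 * n * C * x ≤ min e 1 * (c * q.σ) := by
    have : 0 ≤ 200 * (n : ℝ) * x := by positivity
    nlinarith
  have h9 : 0 ≤ 200 * n * C * x := by positivity
  constructor
  · have a1 : 200 * C * x ≤ 200 * n * C * x := by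
      have : 0 ≤ 200 * C * x := by positivity
      nlinarith
    have a2 : min e 1 * (c * q.σ) ≤ e * (c * q.σ) := mul_le_mul_of_nonneg_right h4 (by positivity)
    linarith
  · have a1 : (200 * n * C * x) ^ 2 ≤ (min e 1 * (c * q.σ)) ^ 2 := pow_le_pow_left₀ h9 h8 2
    have a2 : (min e 1) ^ 2 ≤ e := by nlinarith
    have a3 : (min e 1 * (c * q.σ)) ^ 2 ≤ e * (c * q.σ) ^ 2 := by
      rw [mul_pow]
      exact mul_le_mul_of_nonneg_right a2 (sq_nonneg _)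
    have a4 : 0 ≤ (n : ℝ) ^ 2 * C ^ 2 * x ^ 2 := by positivity
    nlinarith

/-- **Row C.** -/
theorem rowC {n : ℕ} (hn : 1 ≤ n) : RowC n := by
  intro c e hc he
  have hpos : EvC fun q => 0 < q.σ := EvC.pos.mono fun q h => h.2.1.2.1
  have h4 := ev_far hn (e := eC n c e) (fun _ => rfl) (hpos.mono fun q h => eC_pos hn hc he h)
  refine ((h4.and hpos).and (rowG hn)).mono ?_
  rintro q ⟨⟨k1, hσ⟩, k2⟩ d hd z hz hct
  have fb := k1 d hd
  have hzF : z ∈ UF q.κ₁ q d := hz.1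
  have hF : Fk n 3 q.κ₁ q.σ q.e₁ q d := fb.fc.toFC0.toFk
  obtain ⟨g1, g2⟩ := k2 d hd z hz
  obtain ⟨a1, a2⟩ := eC_pos hn hc he hσ
  obtain ⟨b1, b2⟩ := eC_AB hn hc he hσ
  have N1 := hF.tr.nr (by norm_num) univ
  have N2 := hF.tr'.nr (by norm_num) univ
  exact cr_pw (s := q.σ) (fb.sb z hzF) (N1.le2 hF.ε1 (mem_univ z.1))
    (N2.le2 hF.ε1 (mem_univ z.2)) (Cf_nn n q) a1.le a2 hF.R1 hc hσ he.le
    (fb.fc.toFC0.n_ge hzF) (fb.fc.nx_ge z) (fb.fc.ny_ge z) g1 g2 b1 b2 hct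

end Vale.Agent.P088.R2.H269.INF
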