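import Vale.Agent.P088.R2.H269.INF.Gn
import Vale.Agent.P088.R2.H303.F.CerF

/-!
# P088, stage 3, leaf iF: the gain

`|D_x W| ≥ 24/25 (Φ' + Θ') + 3/20 G`, hence `F_x ≥ n_x² / 100`; the same for `y`.
-/

open Set Filter
open scoped ContDiff Topology Matrix

noncomputable section

namespace Vale.Agent.P088.R2.H269.INF

open Vale.Agent.P088.LR Vale.Agent.P088.HY Vale.Agent.P088.R2.H464.Cu
open Vale.Agent.P088.R2.H31.EP Vale.Agent.P088.R2.H475 Vale.Agent.P088.R2.H768.FarJ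
open Vale.Agent.P088.R2.H961.GW Vale.Agent.P088.R2.H657.W Vale.Agent.P088.R2.H303.F
open Vale.Agent.P088.R2.H644.Ch Vale.Agent.P088.R2.H230.W Vale.Agent.P088.R2.H404.INF

variable {n : ℕ} {q : Cst} {d : Pk n} {z : VV n}

/-- The first derivatives of the weight. -/
theorem D_W {R₁ : ℝ} (hF : Fk n 3 q.κ₁ q.σ q.e₁ q d) (hP : PrF q.e₁ R₁)
    (hR₁ : R₁ ≤ q.κ₁ * q.R / 8) (hz : z ∈ UF q.κ₁ q d) :
    (∀ i, d.sx.D i (d.W q) z = nx q d z * pd i d.l z.1 +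
      (q.D 1 0 (jφ q d z, jr d z) * (4 / 5) + q.D 0 1 (jφ q d z, jr d z)) *
        d.sx.D i (jr d) z) ∧
    (∀ i, d.sy.D i (d.W q) z = ny q d z * pd i d.l z.2 +
      (q.D 1 0 (jφ q d z, jr d z) * (4 / 5) + q.D 0 1 (jφ q d z, jr d z)) *
        d.sy.D i (jr d) z) := by
  obtain ⟨su, sφ, sr, r0⟩ := sm_far hF
  obtain ⟨r1, r2, r3⟩ := r0 z hz
  have w := wf_far hF hP
  have ok := ok_x hF
  have ot := ok_y hF
  have eφ := jφ_eq (q := q) z r2
  have e1 : d.W q =ᶠ[𝓝 z] wF d.Φ (SF q.e₁) d.Θ (fun i j f r => q.D i j (f, r)) (uf d.l) (jr d)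
      (fun z => d.l z.1) (fun z => d.l z.2) :=
    Filter.eventually_of_mem (hF.UF_open.mem_nhds hz) fun w hw => W_wF hF hw
  have hS : prL q.e₁ (jr d z) = 4 / 5 := by
    rw [hP.L_far _ (hR₁.trans r3)]; rfl
  have dl1 : DifferentiableAt ℝ d.l z.1 := hF.pk.lev.sm.differentiable (by simp) _
  have dl2 : DifferentiableAt ℝ d.l z.2 := hF.pk.lev.sm.differentiable (by simp) _
  constructor
  · intro i
    have x1 : d.sx.D i (fun z => d.l z.1) z = pd i d.l z.1 :=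
      (Dx_fst dl1 i).trans (one_mul _)
    have x2 : d.sx.D i (fun z => d.l z.2) z = 0 := Dx_snd dl2 i
    have x3 : d.sx.D i (uf d.l) z = pd i d.l z.1 := by
      have := D_add d.sx ok.op w.cx.su w.cy.su i hz
      rw [x1, x2, add_zero] at this
      exact this
    rw [D_congr_nhds d.sx e1 i]
    have a1 : d.sx.D i (wF d.Φ (SF q.e₁) d.Θ (fun i j f r => q.D i j (f, r)) (uf d.l) (jr d)
        (fun z => d.l z.1) (fun z => d.l z.2)) z =
        d.sx.D i (H230.W.wt d.Φ (SF q.e₁) (fun i j f r => q.D i j (f, r)) (uf d.l) (jr d)) z +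
        d.sx.D i (fun z => d.Θ (d.l z.1) + d.Θ (d.l z.2)) z :=
      D_add d.sx ok.op w.w.sm (w.cx.s0.add w.cy.s0) i hz
    rw [a1, D_add d.sx ok.op w.cx.s0 w.cy.s0 i hz, D_wt ok w.w hz i, D_comp ok.op w.cx i hz,
      D_comp ok.op w.cy i hz, x1, x2, x3, ← eφ, hS]
    unfold nx nn
    ring
  · intro i
    have x1 : d.sy.D i (fun z => d.l z.2) z = pd i d.l z.2 :=
      (Dy_snd dl2 i).trans (one_mul _)
    have x2 : d.sy.D i (fun z => d.l z.1) z = 0 := Dy_fst dl1 i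
    have x3 : d.sy.D i (uf d.l) z = pd i d.l z.2 := by
      have := D_add d.sy ot.op w.cx.su w.cy.su i hz
      rw [x1, x2, zero_add] at this
      exact this
    rw [D_congr_nhds d.sy e1 i]
    have a1 : d.sy.D i (wF d.Φ (SF q.e₁) d.Θ (fun i j f r => q.D i j (f, r)) (uf d.l) (jr d)
        (fun z => d.l z.1) (fun z => d.l z.2)) z =
        d.sy.D i (H230.W.wt d.Φ (SF q.e₁) (fun i j f r => q.D i j (f, r)) (uf d.l) (jr d)) z +
        d.sy.D i (fun z => d.Θ (d.l z.1) + d.Θ (d.l z.2)) z :=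
      D_add d.sy ot.op w.w.sm (w.cx.s0.add w.cy.s0) i hz
    rw [a1, D_add d.sy ot.op w.cx.s0 w.cy.s0 i hz, D_wt ot w.w hz i, D_comp ot.op w.cx i hz,
      D_comp ot.op w.cy i hz, x1, x2, x3, ← eφ, hS]
    unfold ny nn
    ring

/-- The lower bound of the gradient. -/
theorem gain_le {g v D : V n} {N G c es : ℝ} (hN : 0 ≤ N) (hG : 0 < G)
    (hg : (24 / 25) ^ 2 ≤ ∑ i, g i ^ 2) (hv : √(HY.sq v) ≤ 101 / 100) (hes : es ≤ 1 / 1000)
    (hc : |c| ≤ es * G) (hD : ∀ i, D i = (N + G) * g i + (G * (4 / 5) + c) * v i) :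
    3 / 20 * (N + G) ≤ √(HY.sq D) := by
  have h1 : √(HY.sq ((4 / 5 + c / G) • v)) ≤ 81 / 100 := by
    rw [en_smul]
    have h2 : |4 / 5 + c / G| ≤ 4 / 5 + 1 / 1000 := by
      refine (abs_add_le _ _).trans ?_
      rw [abs_of_pos (by norm_num : (0 : ℝ) < 4 / 5), abs_div, abs_of_pos hG]
      have : |c| / G ≤ 1 / 1000 := by
        rw [div_le_iff₀ hG]
        nlinarith
      linarith
    calc |4 / 5 + c / G| * √(HY.sq v) ≤ (4 / 5 + 1 / 1000) * (101 / 100) :=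
          mul_le_mul h2 hv (Real.sqrt_nonneg _) (by norm_num)
      _ ≤ _ := by norm_num
  have hg' : 24 / 25 ≤ √(HY.sq g) := Real.le_sqrt_of_sq_le hg
  have h3 := comb_ge hN hG.le hg' h1
  have e : N • g + G • (g + (4 / 5 + c / G) • v) = D := by
    funext i
    rw [hD i]
    simp only [Pi.add_apply, Pi.smul_apply, smul_eq_mul]
    field_simp
    ring
  rw [e] at h3
  linarith

/-- From the euclidean norm to the metric. -/
theorem F_lo {S : Matrix (Fin n) (Fin n) ℝ} {ε m : ℝ}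
    (h : ∀ i j, |S i j - (1 : Matrix (Fin n) (Fin n) ℝ) i j| ≤ ε) (hε : n * ε ≤ 1 / 2) {D : V n}
    (hm : 0 ≤ m) (hD : 3 / 20 * m ≤ √(HY.sq D)) : 1 / 100 * m ^ 2 ≤ bf S D D := by
  have h1 := (abs_le.1 (bf_one h D)).1
  have h2 : (3 / 20 * m) ^ 2 ≤ HY.sq D := by
    have := pow_le_pow_left₀ (by positivity) hD 2
    rwa [Real.sq_sqrt (sq0 D)] at this
  have h3 := mul_le_mul_of_nonneg_right hε (sq0 D)
  nlinarith

/-- **Row G.** -/
theorem rowG (hn : 1 ≤ n) : RowG n := by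
  have h1 : EvC fun q => 0 < q.e₁ → 0 < q.κ₁ → ∃ R₁, PrF q.e₁ R₁ ∧ R₁ ≤ q.κ₁ * q.R / 8 := by
    refine EvC.at_R (fun q t => 0 < q.e₁ → 0 < q.κ₁ → ∃ R₁, PrF q.e₁ R₁ ∧ R₁ ≤ q.κ₁ * t / 8)
      fun q => ?_
    by_cases h : 0 < q.e₁ ∧ 0 < q.κ₁
    · obtain ⟨R₁, hP⟩ := prf_ex h.1
      filter_upwards [lin_ev (a := q.κ₁ / 8) (by have := h.2; positivity) R₁] with t ht _ _
      exact ⟨R₁, hP, by linarith⟩
    · exact Eventually.of_forall fun _ a b => absurd ⟨a, b⟩ h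
  have h2 : EvC fun q => q.es ≤ 1 / 1000 :=
    EvC.at_es (fun _ t => t ≤ 1 / 1000) fun _ => sml_le (by norm_num)
  have h3 : EvC fun q => 0 < q.σ → 5 * n ^ 3 * (cG n 12 * q.ε) ≤ q.σ / 1000 := by
    refine EvC.at_ε (fun q t => 0 < q.σ → 5 * n ^ 3 * (cG n 12 * t) ≤ q.σ / 1000) fun q => ?_
    by_cases h : 0 < q.σ
    · filter_upwards [sml_mul (5 * n ^ 3 * cG n 12) (a := q.σ / 1000) (by positivity)] with t ht _
      linarith
    · exact Eventually.of_forall fun _ a => absurd a h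
  have h4 := ev_far hn (e := fun _ => 1) (fun _ => rfl) (EvC.of fun _ => ⟨one_pos, le_rfl⟩)
  refine (((h1.and h2).and (h3.and h4)).and evInf).mono ?_
  rintro q ⟨⟨⟨k1, k2⟩, k3, k4⟩, hq⟩ d hd z hz
  have fb := (k4 d hd).fc
  have hF : Fk n 3 q.κ₁ q.σ q.e₁ q d := fb.toFC0.toFk
  have hzF : z ∈ UF q.κ₁ q d := hz.1
  obtain ⟨R₁, hP, hR₁⟩ := k1 hF.e0 hF.κ0
  obtain ⟨w1, w2⟩ := OmP_w hq hd hz
  obtain ⟨D1, D2⟩ := D_W hF hP hR₁ hzF
  obtain ⟨v1, v2⟩ := dr_le hF (k3 hF.σ0) hzF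
  have G0 := fb.toFC0.G0 hzF
  have sn := fb.toFC0.sn z hzF
  have M1 := hF.M1
  have j0 : 0 < jr d z := Real.sqrt_pos.2 (lt_trans (by norm_num) (hF.r2_400 hzF))
  have mu := hF.pk.sl.mu (jφ q d z, jr d z) j0
  have sx := fb.sΘ (d.l z.1)
  have sy := fb.sΘ (d.l z.2)
  have g1 : (24 / 25) ^ 2 ≤ ∑ i, pd i d.l z.1 ^ 2 := by
    rw [hF.lit]
    exact grad_levG_ge hF.σ0 hF.σ1 hF.R0 w1.le
  have g2 : (24 / 25) ^ 2 ≤ ∑ i, pd i d.l z.2 ^ 2 := by
    rw [hF.lit]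
    exact grad_levG_ge hF.σ0 hF.σ1 hF.R0 w2.le
  have N1 := hF.tr.nr (by norm_num) univ
  have N2 := hF.tr'.nr (by norm_num) univ
  constructor
  · have a1 := gain_le (g := fun i => pd i d.l z.1) (v := fun k => d.sx.D k (jr d) z)
      (D := fun i => d.sx.D i (d.W q) z) (N := deriv d.Φ (uf d.l z) + deriv d.Θ (d.l z.1))
      (G := q.D 1 0 (jφ q d z, jr d z)) (c := q.D 0 1 (jφ q d z, jr d z)) (by linarith) G0 g1
      v1 k2 mu fun i => by
        rw [D1 i]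
        unfold nx nn
        ring
    have e : deriv d.Φ (uf d.l z) + deriv d.Θ (d.l z.1) + q.D 1 0 (jφ q d z, jr d z) =
        nx q d z := by unfold nx nn; ring
    rw [e] at a1
    exact F_lo (S := d.s₁ z.1) (N1.b0 z.1 (mem_univ _)) hF.ε2 (by
      rw [← e]; linarith) a1
  · have a1 := gain_le (g := fun i => pd i d.l z.2) (v := fun k => d.sy.D k (jr d) z)
      (D := fun i => d.sy.D i (d.W q) z) (N := deriv d.Φ (uf d.l z) + deriv d.Θ (d.l z.2))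
      (G := q.D 1 0 (jφ q d z, jr d z)) (c := q.D 0 1 (jφ q d z, jr d z)) (by linarith) G0 g2
      v2 k2 mu fun i => by
        rw [D2 i]
        unfold ny nn
        ring
    have e : deriv d.Φ (uf d.l z) + deriv d.Θ (d.l z.2) + q.D 1 0 (jφ q d z, jr d z) =
        ny q d z := by unfold ny nn; ring
    rw [e] at a1
    exact F_lo (S := d.s₂ z.2) (N2.b0 z.2 (mem_univ _)) hF.ε2 (by
      rw [← e]; linarith) a1

end Vale.Agent.P088.R2.H269.INF
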