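import Vale.Agent.P088.R2.H269.INF.RowG

/-!
# P088, stage 3, leaf iF: the first order term of the margin
-/

open Set Filter
open scoped ContDiff Topology Matrix

noncomputable section

namespace Vale.Agent.P088.R2.H269.INF

open Vale.Agent.P088.LR Vale.Agent.P088.HY Vale.Agent.P088.R2.H464.Cu
open Vale.Agent.P088.R2.H31.EP Vale.Agent.P088.R2.H475 Vale.Agent.P088.R2.H768.FarJ
open Vale.Agent.P088.R2.H961.GW Vale.Agent.P088.R2.H657.W Vale.Agent.P088.R2.H303.F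
open Vale.Agent.P088.R2.H644.Ch Vale.Agent.P088.R2.H230.W Vale.Agent.P088.R2.H404.INF
open Vale.Agent.P088.R2.H644 Vale.Agent.P088.R2.H747.SW

variable {n : ℕ} {q : Cst} {d : Pk n} {z : VV n}

/-- The sizes of the derivatives of the slow exponential. -/
theorem D_sz {ℓ κ σ e₁ C₃ e : ℝ} (h : FC0 n ℓ κ σ e₁ C₃ q d e) (hC : 0 ≤ C₃)
    (hz : z ∈ UL ℓ κ q d) (i j : ℕ) (h1 : 1 ≤ i + j) (h2 : i + j ≤ 4) :
    |q.D i j (jφ q d z, jr d z)| ≤ (2 + 1 + C₃ + |slB i j| * 1) *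
      sz (nn q d z) (bb q e (nn q d z)) (i + j - 1) := by
  have hz0 : 0 < jr d z := Real.sqrt_pos.2 (lt_trans (by norm_num) (h.r2_400 hz))
  have hR := h.R0
  have hκ := h.κ0
  have hr : κ * q.R / 8 ≤ jr d z := by
    unfold jr
    rw [Real.le_sqrt' (by positivity)]
    exact (h.r2_ge hz).le
  have hn1 := h.n_ge hz
  have hb := h.bb_ge hn1
  have hb0 := h.bb_pos hn1
  have hn0 : 0 ≤ nn q d z := zero_le_one.trans hn1
  refine slow_sz (z := (jφ q d z, jr d z)) h.pk.sl h.s1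
    (by have := h.M1; linarith) hz0 (n := nn q d z) ?_ hb0 zero_le_one ?_ h.c0
    ?_ hC (fun m hm hm' => h.d3 m hm hm' _ hz0) i j h1 h2
  · unfold nn
    linarith [h.sn z hz]
  · rw [h.bb_sq hn0]
    have k1 : 8 * q.c' * nn q d z ≤ e * κ * nn q d z :=
      mul_le_mul_of_nonneg_right h.cκ hn0
    have k2 : e * nn q d z / q.R * (κ * q.R / 8) ≤ e * nn q d z / q.R * jr d z := by
      have := h.ep
      gcongr
    have k3 : e * nn q d z / q.R * (κ * q.R / 8) = e * κ * nn q d z / 8 := by field_simp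
    show q.c' * nn q d z ≤ e * nn q d z / q.R * jr d z
    linarith
  · rw [one_mul]
    calc (1 : ℝ) = 8 / (κ * q.R) * (κ * q.R / 8) := by field_simp
      _ ≤ bb q e (nn q d z) * jr d z := mul_le_mul hb hr (by positivity) hb0.le

/-- The derivatives of the size of the gradient. -/
theorem D_nx {R₁ : ℝ} (hF : Fk n 3 q.κ₁ q.σ q.e₁ q d) (hP : PrF q.e₁ R₁)
    (hR₁ : R₁ ≤ q.κ₁ * q.R / 8) (hz : z ∈ UF q.κ₁ q d) :
    (∀ i, d.sx.D i (nx q d) z = (deriv (deriv d.Φ) (uf d.l z) +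
        q.D 2 0 (jφ q d z, jr d z)) * pd i d.l z.1 +
      (q.D 2 0 (jφ q d z, jr d z) * (4 / 5) + q.D 1 1 (jφ q d z, jr d z)) *
        d.sx.D i (jr d) z + deriv (deriv d.Θ) (d.l z.1) * pd i d.l z.1) ∧
    (∀ i, d.sy.D i (ny q d) z = (deriv (deriv d.Φ) (uf d.l z) +
        q.D 2 0 (jφ q d z, jr d z)) * pd i d.l z.2 +
      (q.D 2 0 (jφ q d z, jr d z) * (4 / 5) + q.D 1 1 (jφ q d z, jr d z)) *
        d.sy.D i (jr d) z + deriv (deriv d.Θ) (d.l z.2) * pd i d.l z.2) := by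
  obtain ⟨su, sφ, sr, r0⟩ := sm_far hF
  obtain ⟨r1, r2, r3⟩ := r0 z hz
  have w := wf_far hF hP
  have ok := ok_x hF
  have ot := ok_y hF
  have eφ := jφ_eq (q := q) z r2
  have hS : prL q.e₁ (jr d z) = 4 / 5 := by
    rw [hP.L_far _ (hR₁.trans r3)]; rfl
  have dl1 : DifferentiableAt ℝ d.l z.1 := hF.pk.lev.sm.differentiable (by simp) _
  have dl2 : DifferentiableAt ℝ d.l z.2 := hF.pk.lev.sm.differentiable (by simp) _
  have s2 : Sm (UF q.κ₁ q d) fun z => q.D 1 0 (uf d.l z + SF q.e₁ (jr d z), jr d z) := w.w.cD.s10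
  constructor
  · intro i
    have x1 : d.sx.D i (fun z => d.l z.1) z = pd i d.l z.1 :=
      (Dx_fst dl1 i).trans (one_mul _)
    have x2 : d.sx.D i (fun z => d.l z.2) z = 0 := Dx_snd dl2 i
    have x3 : d.sx.D i (uf d.l) z = pd i d.l z.1 := by
      have := D_add d.sx ok.op w.cx.su w.cy.su i hz
      rw [x1, x2, add_zero] at this
      exact this
    have e1 : d.sx.D i (nx q d) z = d.sx.D i (fun z => (deriv d.Φ (uf d.l z) +
        q.D 1 0 (uf d.l z + SF q.e₁ (jr d z), jr d z)) + deriv d.Θ (d.l z.1)) z := by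
      refine D_congr d.sx ok.op (fun y hy => ?_) i hz
      unfold nx nn
      rw [jφ_eq y (r0 y hy).2.1]
    have a2 : d.sx.D i (fun z => q.D 1 0 (uf d.l z + SF q.e₁ (jr d z), jr d z)) z =
        q.D 2 0 (uf d.l z + SF q.e₁ (jr d z), jr d z) *
          d.sx.D i (fun z => uf d.l z + SF q.e₁ (jr d z)) z +
        q.D 1 1 (uf d.l z + SF q.e₁ (jr d z), jr d z) * d.sx.D i (jr d) z :=
      D_comp2 ok.op w.w.cD (p := 1) (q := 0) (by norm_num) i hz
    rw [e1, D_add d.sx ok.op (w.w.cu.s1.add s2) w.cx.s1 i hz,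
      D_add d.sx ok.op w.w.cu.s1 s2 i hz, D_comp1 ok.op w.w.cu i hz, a2,
      D_f ok w.w hz i, D_comp1 ok.op w.cx i hz, x1, x3, ← eφ, hS]
    ring
  · intro i
    have x1 : d.sy.D i (fun z => d.l z.2) z = pd i d.l z.2 :=
      (Dy_snd dl2 i).trans (one_mul _)
    have x2 : d.sy.D i (fun z => d.l z.1) z = 0 := Dy_fst dl1 i
    have x3 : d.sy.D i (uf d.l) z = pd i d.l z.2 := by
      have := D_add d.sy ot.op w.cx.su w.cy.su i hz
      rw [x1, x2, zero_add] at this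
      exact this
    have e1 : d.sy.D i (ny q d) z = d.sy.D i (fun z => (deriv d.Φ (uf d.l z) +
        q.D 1 0 (uf d.l z + SF q.e₁ (jr d z), jr d z)) + deriv d.Θ (d.l z.2)) z := by
      refine D_congr d.sy ot.op (fun y hy => ?_) i hz
      unfold ny nn
      rw [jφ_eq y (r0 y hy).2.1]
    have a2 : d.sy.D i (fun z => q.D 1 0 (uf d.l z + SF q.e₁ (jr d z), jr d z)) z =
        q.D 2 0 (uf d.l z + SF q.e₁ (jr d z), jr d z) *
          d.sy.D i (fun z => uf d.l z + SF q.e₁ (jr d z)) z +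
        q.D 1 1 (uf d.l z + SF q.e₁ (jr d z), jr d z) * d.sy.D i (jr d) z :=
      D_comp2 ot.op w.w.cD (p := 1) (q := 0) (by norm_num) i hz
    rw [e1, D_add d.sy ot.op (w.w.cu.s1.add s2) w.cy.s1 i hz,
      D_add d.sy ot.op w.w.cu.s1 s2 i hz, D_comp1 ot.op w.w.cu i hz, a2,
      D_f ot w.w hz i, D_comp1 ot.op w.cy i hz, x1, x3, ← eφ, hS]
    ring

/-- The constant. -/
def Kd : ℝ := (3 + Cs3 + |slB 2 0|) + (3 + Cs3 + |slB 1 1|)

theorem Kd_nn : 0 ≤ Kd := by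
  have := Cs3_nn
  unfold Kd
  positivity

/-- The numbers. -/
theorem dn_le {a b c t X g v K : ℝ} (ha : |a| ≤ X) (hb : |b| ≤ K * X) (hc : |c| ≤ K * X)
    (ht : |t| ≤ X) (hg : |g| ≤ 2) (hv : |v| ≤ 2) (hX : 0 ≤ X) (hK : 0 ≤ K) :
    |(a + b) * g + (b * (4 / 5) + c) * v + t * g| ≤ (4 + 6 * K) * X := by
  have k1 : |(a + b) * g| ≤ (X + K * X) * 2 := by
    rw [abs_mul]
    exact mul_le_mul ((abs_add_le _ _).trans (add_le_add ha hb)) hg (abs_nonneg _) (by positivity)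
  have k2 : |(b * (4 / 5) + c) * v| ≤ (K * X * (4 / 5) + K * X) * 2 := by
    rw [abs_mul]
    refine mul_le_mul ((abs_add_le _ _).trans (add_le_add ?_ hc)) hv (abs_nonneg _) (by positivity)
    rw [abs_mul, abs_of_pos (by norm_num : (0 : ℝ) < 4 / 5)]
    exact mul_le_mul_of_nonneg_right hb (by norm_num)
  have k3 : |t * g| ≤ X * 2 := by
    rw [abs_mul]
    exact mul_le_mul ht hg (abs_nonneg _) hX
  have h1 := abs_add_le ((a + b) * g + (b * (4 / 5) + c) * v) (t * g)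
  have h2 := abs_add_le ((a + b) * g) ((b * (4 / 5) + c) * v)
  have h3 : 0 ≤ K * X := mul_nonneg hK hX
  linarith

/-- The final numbers. -/
theorem w_le {X b L G C K N e F R : ℝ} (hX : 1 ≤ X) (hL : |L| ≤ C * (X * b))
    (hG : |G| ≤ N ^ 2 * (2 * (K * (X * b)) * (C * X))) (hb0 : 0 ≤ b) (hb : b ^ 2 = 1 * X / R)
    (hR : 1 ≤ R) (hC : 0 ≤ C) (hK : 0 ≤ K) (he : 0 < e) (hF : 1 / 100 * X ^ 2 ≤ F)
    (hh : (100 * (C + 2 * N ^ 2 * K * C) / e) ^ 2 ≤ R) : |X * L + G| ≤ e * (X * F) := by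
  have hR0 : 0 < R := by linarith
  have hX0 : 0 ≤ X := by linarith
  set M := C + 2 * N ^ 2 * K * C with hM
  have hM0 : 0 ≤ M := by positivity
  have h1 : |X * L + G| ≤ M * (X ^ 2 * b) := by
    refine (abs_add_le _ _).trans ?_
    rw [abs_mul, abs_of_nonneg hX0]
    have a1 : X * |L| ≤ X * (C * (X * b)) := mul_le_mul_of_nonneg_left hL hX0
    rw [hM]
    calc X * |L| + |G| ≤ X * (C * (X * b)) + N ^ 2 * (2 * (K * (X * b)) * (C * X)) :=
          add_le_add a1 hG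
      _ = _ := by ring
  have h2 : 100 * M / e * b ≤ X := by
    have a1 : (100 * M / e * b) ^ 2 ≤ X ^ 2 := by
      rw [mul_pow, hb]
      calc (100 * M / e) ^ 2 * (1 * X / R) ≤ R * (1 * X / R) :=
            mul_le_mul_of_nonneg_right hh (by positivity)
        _ = X := by field_simp
        _ ≤ X ^ 2 := by nlinarith
    exact (abs_le_of_sq_le_sq' a1 hX0).2
  have h3 : M * b ≤ e * (1 / 100 * X) := by
    have e1 : 100 * M / e * b = (M * b) * (100 / e) := by ring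
    rw [e1] at h2
    have a1 := mul_le_mul_of_nonneg_right h2 (by positivity : 0 ≤ e / 100)
    have e2 : M * b * (100 / e) * (e / 100) = M * b := by field_simp
    rw [e2] at a1
    linarith
  calc |X * L + G| ≤ M * (X ^ 2 * b) := h1
    _ = X ^ 2 * (M * b) := by ring
    _ ≤ X ^ 2 * (e * (1 / 100 * X)) := mul_le_mul_of_nonneg_left h3 (by positivity)
    _ = e * (X * (1 / 100 * X ^ 2)) := by ring
    _ ≤ e * (X * F) := by gcongr

/-- The derivatives of the size of the gradient, bounded. -/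
theorem dnx_le {R₁ : ℝ} (fb : FC n q.κ₁ q.σ q.e₁ Cs3 q d 1) (hP : PrF q.e₁ R₁)
    (hR₁ : R₁ ≤ q.κ₁ * q.R / 8) (hc : 5 * n ^ 3 * (cG n 12 * q.ε) ≤ q.σ / 1000)
    (hz : z ∈ UF q.κ₁ q d) :
    (∀ i, |d.sx.D i (nx q d) z| ≤ (4 + 6 * Kd) * (nx q d z * bb q 1 (nx q d z))) ∧
    (∀ i, |d.sy.D i (ny q d) z| ≤ (4 + 6 * Kd) * (ny q d z * bb q 1 (ny q d z))) := by
  have hF : Fk n 3 q.κ₁ q.σ q.e₁ q d := fb.toFC0.toFk
  obtain ⟨D1, D2⟩ := D_nx hF hP hR₁ hz
  obtain ⟨v1, v2⟩ := dr_le hF hc hz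
  have hR := hF.R0
  have hn1 := fb.toFC0.n_ge hz
  have hb0 := fb.toFC0.bb_pos hn1
  have hx := fb.nx_ge z
  have hy := fb.ny_ge z
  have hbx := fb.toFC0.bb_mono hx
  have hby := fb.toFC0.bb_mono hy
  have hC := Cs3_nn
  have g1 : ∀ i, |pd i d.l z.1| ≤ 2 := by
    intro i
    have h1 : ∑ i, pd i d.l z.1 ^ 2 ≤ 1 + 10 * q.σ := by
      have h2 := hz.1
      rw [hF.lit] at h2 ⊢
      refine grad_levG_le' hF.σ0 hF.σ1 hR (h2.le.trans ?_)
      exact add_le_add_right (mul_le_mul_of_nonneg_right (by norm_num) hR.le) _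
    have h3 : pd i d.l z.1 ^ 2 ≤ ∑ i, pd i d.l z.1 ^ 2 :=
      Finset.single_le_sum (f := fun i => pd i d.l z.1 ^ 2) (fun _ _ => sq_nonneg _)
        (Finset.mem_univ i)
    have := hF.σ1
    exact abs_le_of_sq_le_sq (by linarith) (by norm_num)
  have g2 : ∀ i, |pd i d.l z.2| ≤ 2 := by
    intro i
    have h1 : ∑ i, pd i d.l z.2 ^ 2 ≤ 1 + 10 * q.σ := by
      have h2 := hz.2.1
      rw [hF.lit] at h2 ⊢
      refine grad_levG_le' hF.σ0 hF.σ1 hR (h2.le.trans ?_)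
      exact add_le_add_right (mul_le_mul_of_nonneg_right (by norm_num) hR.le) _
    have h3 : pd i d.l z.2 ^ 2 ≤ ∑ i, pd i d.l z.2 ^ 2 :=
      Finset.single_le_sum (f := fun i => pd i d.l z.2 ^ 2) (fun _ _ => sq_nonneg _)
        (Finset.mem_univ i)
    have := hF.σ1
    exact abs_le_of_sq_le_sq (by linarith) (by norm_num)
  have dd : ∀ (f : ℝ → ℝ) (t : ℝ), iteratedDeriv (1 + 1) f t = deriv (deriv f) t := fun f t => by
    rw [iteratedDeriv_succ, iteratedDeriv_one]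
  have P := fb.bP z hz 1 le_rfl (by norm_num)
  rw [dd, sz1] at P
  have X := fb.bX z hz 1 le_rfl (by norm_num)
  rw [dd, sz1] at X
  have Y := fb.bY z hz 1 le_rfl (by norm_num)
  rw [dd, sz1] at Y
  have s1 := D_sz fb.toFC0 hC hz 2 0 (by norm_num) (by norm_num)
  have s2 := D_sz fb.toFC0 hC hz 1 1 (by norm_num) (by norm_num)
  have b1 : |q.D 2 0 (jφ q d z, jr d z)| ≤ Kd * (nn q d z * bb q 1 (nn q d z)) := by
    rw [show 2 + 0 - 1 = 1 from rfl, sz1] at s1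
    refine s1.trans (mul_le_mul_of_nonneg_right ?_ (by positivity))
    unfold Kd
    have := abs_nonneg (slB 1 1)
    linarith
  have b2 : |q.D 1 1 (jφ q d z, jr d z)| ≤ Kd * (nn q d z * bb q 1 (nn q d z)) := by
    rw [show 1 + 1 - 1 = 1 from rfl, sz1] at s2
    refine s2.trans (mul_le_mul_of_nonneg_right ?_ (by positivity))
    unfold Kd
    have := abs_nonneg (slB 2 0)
    linarith
  have K0 := Kd_nn
  have mx : nn q d z * bb q 1 (nn q d z) ≤ nx q d z * bb q 1 (nx q d z) :=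
    mul_le_mul hx hbx hb0.le (by linarith)
  have my : nn q d z * bb q 1 (nn q d z) ≤ ny q d z * bb q 1 (ny q d z) :=
    mul_le_mul hy hby hb0.le (by linarith)
  have n0 : 0 ≤ nn q d z * bb q 1 (nn q d z) := by positivity
  constructor
  · intro i
    rw [D1 i]
    exact dn_le (P.trans mx) (b1.trans (mul_le_mul_of_nonneg_left mx K0))
      (b2.trans (mul_le_mul_of_nonneg_left mx K0)) X (g1 i)
      ((cmp_en (fun k => d.sx.D k (jr d) z) i).trans (v1.trans (by norm_num))) (n0.trans mx) K0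
  · intro i
    rw [D2 i]
    exact dn_le (P.trans my) (b1.trans (mul_le_mul_of_nonneg_left my K0))
      (b2.trans (mul_le_mul_of_nonneg_left my K0)) Y (g2 i)
      ((cmp_en (fun k => d.sy.D k (jr d) z) i).trans (v2.trans (by norm_num))) (n0.trans my) K0

/-- **Row W.** -/
theorem rowW (hn : 1 ≤ n) : RowW n := by
  intro e he
  have h1 : EvC fun q => 0 < q.e₁ → 0 < q.κ₁ → ∃ R₁, PrF q.e₁ R₁ ∧ R₁ ≤ q.κ₁ * q.R / 8 := by
    refine EvC.at_R (fun q t => 0 < q.e₁ → 0 < q.κ₁ → ∃ R₁, PrF q.e₁ R₁ ∧ R₁ ≤ q.κ₁ * t / 8)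
      fun q => ?_
    by_cases h : 0 < q.e₁ ∧ 0 < q.κ₁
    · obtain ⟨R₁, hP⟩ := prf_ex h.1
      filter_upwards [lin_ev (a := q.κ₁ / 8) (by have := h.2; positivity) R₁] with t ht _ _
      exact ⟨R₁, hP, by linarith⟩
    · exact Eventually.of_forall fun _ a b => absurd ⟨a, b⟩ h
  have h3 : EvC fun q => 0 < q.σ → 5 * n ^ 3 * (cG n 12 * q.ε) ≤ q.σ / 1000 := by
    refine EvC.at_ε (fun q t => 0 < q.σ → 5 * n ^ 3 * (cG n 12 * t) ≤ q.σ / 1000) fun q => ?_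
    by_cases h : 0 < q.σ
    · filter_upwards [sml_mul (5 * n ^ 3 * cG n 12) (a := q.σ / 1000) (by positivity)] with t ht _
      linarith
    · exact Eventually.of_forall fun _ a => absurd a h
  have h5 : EvC fun q =>
      (100 * (Cf n q + 2 * (n : ℝ) ^ 2 * (4 + 6 * Kd) * Cf n q) / e) ^ 2 ≤ q.R :=
    EvC.at_R (fun q t => (100 * (Cf n q + 2 * (n : ℝ) ^ 2 * (4 + 6 * Kd) * Cf n q) / e) ^ 2 ≤ t)
      fun q => eventually_ge_atTop _
  have h4 := ev_far hn (e := fun _ => 1) (fun _ => rfl) (EvC.of fun _ => ⟨one_pos, le_rfl⟩)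
  refine (((h1.and h3).and (h4.and h5)).and (rowG hn)).mono ?_
  rintro q ⟨⟨⟨k1, k3⟩, k4, k5⟩, k6⟩ d hd z hz
  have fb := (k4 d hd).fc
  have hF : Fk n 3 q.κ₁ q.σ q.e₁ q d := fb.toFC0.toFk
  have hzF : z ∈ UF q.κ₁ q d := hz.1
  obtain ⟨R₁, hP, hR₁⟩ := k1 hF.e0 hF.κ0
  obtain ⟨g1, g2⟩ := k6 d hd z hz
  have sb := (k4 d hd).sb z hzF
  obtain ⟨w1, w2⟩ := dnx_le fb hP hR₁ (k3 hF.σ0) hzF
  have hn1 := fb.toFC0.n_ge hzF
  have hx := hn1.trans (fb.nx_ge z)
  have hy := hn1.trans (fb.ny_ge z)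
  have N1 := hF.tr.nr (by norm_num) univ
  have N2 := hF.tr'.nr (by norm_num) univ
  have K0 := Kd_nn
  have L1 := sb.L1
  have L2 := sb.L1'
  rw [sz1] at L1 L2
  have d1 := sb.d1
  have d2 := sb.d1'
  simp only [sz0] at d1 d2
  constructor
  · have G := Sy.G_le (σ := d.sx) (N1.le2 hF.ε1 (mem_univ z.1)) w1 d1
    rw [Fintype.card_fin] at G
    exact w_le hx L1 G (Real.sqrt_nonneg _) (fb.toFC0.bb_sq (by linarith)) hF.R1 (Cf_nn n q)
      (by positivity) he g1 k5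
  · have G := Sy.G_le (σ := d.sy) (N2.le2 hF.ε1 (mem_univ z.2)) w2 d2
    rw [Fintype.card_fin] at G
    exact w_le hy L2 G (Real.sqrt_nonneg _) (fb.toFC0.bb_sq (by linarith)) hF.R1 (Cf_nn n q)
      (by positivity) he g2 k5

end Vale.Agent.P088.R2.H269.INF
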