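import Vale.Agent.P088.R2.H303.F.Fin
import Vale.Agent.P088.R2.H269.INF.RowC

/-!
# P088, stage 3: the zone theorem of the leaf iF
-/

noncomputable section

namespace Vale.Agent.P088.R2.H269.INF

open Vale.Agent.P088.R2.H31.EP Vale.Agent.P088.R2.H303.F

/-- **Zone iF.** -/
theorem zone_iF {n : ℕ} (hn : 1 ≤ n) :
    ZoneThm n (fun q d => d.ch q .iF) (fun q d => (MzF q d).sm fun z => d.ch q .iF z ^ 2)
      (fun q d => cozF q d) :=
  zone_GC hn (rowG hn) (rowC hn)

end Vale.Agent.P088.R2.H269.INF
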